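import Vale.Agent.P011.H543.C2.Ball2
import Vale.Agent.P011.H872.GF.PlaceHom
import Vale.Agent.P011.H973.QuadPl

/-!
**The good field of the doubling step over a global function field of characteristic two.**
-/

open Matrix Module Polynomial Filter Topology

set_option linter.unusedSectionVars false

namespace Vale.Agent.P011.H543.C2

open Vale.Agent.P011.H738 Vale.Agent.P011.H271 Vale.Agent.P011.H487
open Vale.Agent.P011.H961
open Vale.Agent.P011.H271.S3 (Ab)
open Vale.Agent.P011.H698 (Sm Bd)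
open Vale.Agent.P011.H872.GF (exists_place_hom)

variable {k K A : Type} [Field k] [Field K] [StarRing K] [Ring A] [StarRing A]
  [Algebra k K] [Algebra k A] [Algebra K A] [IsScalarTower k K A] [StarModule K A] {n m N : ℕ}

/-- A positive lower bound of finitely many positive numbers. -/
theorem pos_le {ι : Type*} [Finite ι] (δ : ι → ℝ) (h : ∀ i, 0 < δ i) :
    ∃ ε : ℝ, 0 < ε ∧ ∀ i, ε ≤ δ i := by
  classical
  have := Fintype.ofFinite ι
  refine ⟨∏ i, min 1 (δ i), Finset.prod_pos fun i _ => lt_min one_pos (h i), fun i => ?_⟩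
  rw [← Finset.mul_prod_erase Finset.univ _ (Finset.mem_univ i)]
  refine (mul_le_of_le_one_right (le_min zero_le_one (h i).le) ?_).trans (min_le_right _ _)
  exact Finset.prod_le_one (fun i _ => le_min zero_le_one (h i).le) fun i _ => min_le_left _ _

/-- A nonzero symmetric element with `y t = (t + 1) y`. -/
theorem exists_y0 (h2 : (2 : k) = 0) (hA : Anis k K A n) {κ : K} (hκ : κ + star κ = 1) {a : k}
    {t : A} (hts : star t = t) (htt : t * t + t = algebraMap k A a)
    (hta : ∀ x : k, x * x + x ≠ a) : ∃ y ∈ W2 t, y ≠ 0 := by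
  have hcen := hA.central
  have hsim := hA.simple
  have h2A := two_A (A := A) h2
  by_contra hcon
  push Not at hcon
  have hsym : ∀ σ : A, star σ = σ → t * σ = σ * t := by
    intro σ hσ
    have h1 := hcon _ (proj_mem h2A hts htt (Algebra.commutes _ _) hσ)
    calc t * σ = t * σ + (σ * t + σ * t) := by rw [h2A, add_zero]
      _ = σ * t := by rw [← add_assoc, h1, zero_add]
  have hall : ∀ x : A, x * t = t * x := by
    intro x
    have h3 : x = (κ • x + star (κ • x)) + star κ • (x + star x) := by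
      have e : (κ • x + star (κ • x)) + star κ • (x + star x) =
          (κ + star κ) • x + (star κ • star x + star κ • star x) := by
        rw [star_smul, smul_add, add_smul]
        abel
      rw [e, hκ, one_smul, h2A, add_zero]
    have h4 := hsym (κ • x + star (κ • x)) (by rw [star_add, star_star, add_comm])
    have h5 := hsym (x + star x) (by rw [star_add, star_star, add_comm])
    calc x * t = ((κ • x + star (κ • x)) + star κ • (x + star x)) * t := by rw [← h3]
      _ = t * ((κ • x + star (κ • x)) + star κ • (x + star x)) := by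
        rw [add_mul, mul_add, h4, smul_mul_assoc, mul_smul_comm, h5]
      _ = _ := by rw [← h3]
  have h6 : t ∈ Subalgebra.center K A := Subalgebra.mem_center_iff.mpr hall
  rw [Algebra.IsCentral.center_eq_bot, Algebra.mem_bot] at h6
  obtain ⟨c, rfl⟩ := h6
  have h7 : algebraMap K A (star c) = algebraMap K A c := by
    have h8 : star (algebraMap K A c) = algebraMap K A (star c) := by
      rw [Algebra.algebraMap_eq_smul_one, star_smul, star_one, ← Algebra.algebraMap_eq_smul_one]
    rw [← h8, hts]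
  obtain ⟨b, rfl⟩ := (hA.fixed c).mp ((algebraMap K A).injective h7)
  refine hta b ?_
  rw [← IsScalarTower.algebraMap_apply, ← map_mul, ← map_add] at htt
  exact (algebraMap k A).injective htt

/-- The constant term of the minimal polynomial of a unit. -/
theorem coeff_zero_ne {k A : Type*} [Field k] [Ring A] [Nontrivial A] [Algebra k A] {x : A}
    (hx : IsUnit x) (hi : IsIntegral k x) : (minpoly k x).coeff 0 ≠ 0 := by
  intro h
  obtain ⟨q, hq⟩ := X_dvd_iff.mpr h
  have hm := minpoly.monic hi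
  have hqm : q.Monic := by
    rw [hq] at hm
    exact monic_X.of_mul_monic_left hm
  have h1 : aeval x q = 0 := by
    have h3 := minpoly.aeval k x
    rw [hq, map_mul, aeval_X] at h3
    exact (hx.mul_right_eq_zero).mp h3
  have h4 := minpoly.min k x hqm h1
  rw [hq, degree_mul, degree_X] at h4
  have h5 : q.degree = (q.natDegree : WithBot ℕ) := degree_eq_natDegree hqm.ne_zero
  rw [h5] at h4
  have h6 : 1 + q.natDegree ≤ q.natDegree := by exact_mod_cast h4
  omega

/-- Elements of a commutant without zero divisors have irreducible minimal polynomials. -/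
theorem irred_of_cent {k A : Type*} [Field k] [Ring A] [Nontrivial A] [Algebra k A] {t x : A}
    (hC : ∀ x : A, x * t = t * x → x ≠ 0 → IsUnit x) (hx : x * t = t * x)
    (hi : IsIntegral k x) : Irreducible (minpoly k x) := by
  obtain ⟨S, hS⟩ : ∃ S : Subalgebra k A, S = Subalgebra.centralizer k {t} := ⟨_, rfl⟩
  have hmem : ∀ y : A, y ∈ S ↔ y * t = t * y := by
    intro y
    rw [hS, Subalgebra.mem_centralizer_iff]
    constructor
    · intro h
      exact (h t rfl).symm
    · rintro h z rfl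
      exact h.symm
  have : NoZeroDivisors S :=
    { eq_zero_or_eq_zero_of_mul_eq_zero := by
        intro y z hyz
        by_cases hy : (y : A) = 0
        · left
          exact Subtype.ext hy
        · right
          have hu := hC y ((hmem _).mp y.2) hy
          apply Subtype.ext
          have h3 : (y : A) * (z : A) = 0 := by
            have h4 := congrArg Subtype.val hyz
            exact h4
          exact (hu.mul_right_eq_zero).mp h3 }
  have : IsDomain S := NoZeroDivisors.to_isDomain S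
  have hxS : x ∈ S := (hmem x).mpr hx
  have h5 : minpoly k x = minpoly k (⟨x, hxS⟩ : S) :=
    minpoly.algHom_eq S.val Subtype.val_injective ⟨x, hxS⟩
  rw [h5]
  refine minpoly.irreducible ?_
  rw [← isIntegral_algHom_iff S.val Subtype.val_injective]
  exact hi

theorem place_int {k : Type} [Field k] [GFF k] (x : k) : {v : Place k | 1 < v.abv x}.Finite := by
  by_cases hx : x = 0
  · refine Set.Finite.subset Set.finite_empty fun v hv => ?_
    rw [Set.mem_ofPred_eq, hx, map_zero] at hv
    exact absurd hv (not_lt.mpr zero_le_one)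
  · exact (place_finite hx).subset fun v hv => (ne_of_gt hv)

/-- The local conditions at almost all places. -/
theorem exists_local2 [GFF k] (h2 : (2 : k) = 0) (hm : 0 < m) (hA : Anis k K A (2 * m))
    (B : Basis (Fin N) k A)
    {κ : K} (hκ : κ + star κ = 1) {a ν : k} (hν : κ * star κ = algebraMap k K (ν + a)) {t : A}
    (hts : star t = t) (htt : t * t + t = algebraMap k A a) (hta : ∀ x : k, x * x + x ≠ a)
    (hC : ∀ x : A, x * t = t * x → x ≠ 0 → IsUnit x) :
    ∃ S : Set (Place k), S.Finite ∧ (∀ v ∉ S, v.abv ν ≤ 1) ∧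
      ∀ v ∉ S, ∃ (c : Fin m → k) (jv : A) (ε : ℝ),
      (∀ i, c i ≠ 0) ∧ (∀ i j, i < j → v.abv (c i) < v.abv (c j)) ∧ jv ∈ W2 t ∧ 0 < ε ∧
      BallAt B v m t c jv ε := by
  have hcen := hA.central
  have hsim := hA.simple
  have hn0 : 2 * m ≠ 0 := by omega
  have hfd : FiniteDimensional k A := Module.finite_of_finrank_pos (by
    rw [H519.finrank_of_anis hA]
    positivity)
  obtain ⟨y0, hy0, hy00⟩ := exists_y0 h2 hA hκ hts htt hta
  have hu : IsUnit (y0 * y0) := by
    refine hC _ (W2.sq_comm (two_A h2) hy0) fun h => hy00 (hA.anisotropic y0 ?_)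
    rw [hy0.1, h]
  obtain ⟨μ, hμ⟩ : ∃ μ, μ = minpoly k (y0 * y0) := ⟨_, rfl⟩
  have hμ0 : μ.coeff 0 ≠ 0 := by
    rw [hμ]
    exact coeff_zero_ne hu (Algebra.IsIntegral.isIntegral _)
  obtain ⟨T, hT⟩ := exists_split_ae (k := k) (A := A) hA.fixed hn0 hA.finrank_eq
  obtain ⟨S, hSd⟩ : ∃ S : Set (Place k), S = (T : Set (Place k)) ∪ ({v | 1 < v.abv ν} ∪
    ((⋃ i ∈ Finset.range (μ.natDegree + 1), {v | 1 < v.abv (μ.coeff i)}) ∪
      {v | v.abv (μ.coeff 0) ≠ 1})) := ⟨_, rfl⟩
  have hmem : ∀ v ∉ S, v ∉ T ∧ v.abv ν ≤ 1 ∧ (∀ i, v.abv (μ.coeff i) ≤ 1) ∧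
      v.abv (μ.coeff 0) = 1 := by
    intro v hv
    rw [hSd, Set.mem_union, Set.mem_union, Set.mem_union, not_or, not_or, not_or,
      Set.mem_ofPred_eq, Set.mem_ofPred_eq, not_not, not_lt] at hv
    obtain ⟨g1, g2, g3, g4⟩ := hv
    refine ⟨fun h => g1 (Finset.mem_coe.mpr h), g2, fun i => ?_, g4⟩
    by_cases hi : i ≤ μ.natDegree
    · by_contra hcon
      refine g3 (Set.mem_iUnion₂.mpr ⟨i, Finset.mem_range.mpr (by omega), ?_⟩)
      rw [Set.mem_ofPred_eq]
      exact not_le.mp hcon
    · rw [coeff_eq_zero_of_natDegree_lt (not_le.mp hi), map_zero]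
      exact zero_le_one
  refine ⟨S, ?_, fun v hv => (hmem v hv).2.1, fun v hv => ?_⟩
  · rw [hSd]
    refine (Finset.finite_toSet T).union ((place_int ν).union (Set.Finite.union ?_
      (place_finite hμ0)))
    exact Set.Finite.biUnion (Finset.finite_toSet _) fun i _ => place_int _
  obtain ⟨hvT, hνv, hint, h0⟩ := hmem v hv
  rw [hμ] at hint h0
  obtain ⟨c, hc0, hc⟩ : ∃ c : Fin m → k, (∀ i, c i ≠ 0) ∧
      ∀ i j, i < j → v.abv (c i) < v.abv (c j) := by
    obtain ⟨x, hx⟩ := v.normalized.2.1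
    have h1 : 1 < v.abv x := by
      rw [hx]
      exact_mod_cast one_lt_qq v
    refine ⟨fun i => x ^ (i : ℕ), fun i => pow_ne_zero _ ?_, fun i j hij => ?_⟩
    · rintro rfl
      rw [map_zero] at h1
      exact absurd h1 (not_lt.mpr zero_le_one)
    · rw [map_pow, map_pow]
      exact pow_lt_pow_right₀ h1 hij
  by_cases hsp : Nonempty (K →ₐ[k] v.comp)
  · obtain ⟨φ⟩ := hsp
    let _ := nnfPlace v
    have hn1 : ∀ c : k, ‖(φ : K →+* v.comp) (algebraMap k K c)‖ = v.abv c := fun c => by
      change ‖φ (algebraMap k K c)‖ = _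
      rw [φ.commutes, norm_alg]
    obtain ⟨g, hg⟩ := hT v hvT v.comp (φ : K →+* v.comp) hn1
    obtain ⟨Y, h3, h4⟩ := pre_split2 h2 hm hA hκ hν hts htt hy0 hνv hint h0 hg c
    obtain ⟨jv, hjv, ε, hε, hb⟩ := exists_ball2 (φ := (φ : K →+* v.comp)) h2 hm hA B hn1 hg
      hc0 hc h3 h4
    exact ⟨c, jv, ε, hc0, hc, hjv, hε, hb⟩
  · rw [not_nonempty_iff] at hsp
    obtain ⟨L, _, _, _, _, _, φ, hst, hφs, hd, hφ, hnorm, -⟩ :=
      exists_quad_field hA.fixed hA.star_ne v hsp
    have hn1 : ∀ c : k, ‖φ (algebraMap k K c)‖ = v.abv c := fun c => by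
      rw [hφ, hnorm, norm_alg]
    obtain ⟨g, hg⟩ := hT v hvT L φ hn1
    obtain ⟨Y, h3, h4⟩ := pre_nonsplit2 h2 hm hA hκ hν hts htt hy0 hνv hint h0 hst hφs hd hn1
      hg c
    obtain ⟨jv, hjv, ε, hε, hb⟩ := exists_ball2 h2 hm hA B hn1 hg hc0 hc h3 h4
    exact ⟨c, jv, ε, hc0, hc, hjv, hε, hb⟩

/-- **The good field in characteristic two.** -/
theorem exists_goodE2 [GFF k] (h2 : (2 : k) = 0) {m : ℕ} (hm : 0 < m) (hA : Anis k K A (2 * m))
    {κ : K} (hκ : κ + star κ = 1) {a ν : k} (hν : κ * star κ = algebraMap k K (ν + a)) {t : A}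
    (hts : star t = t) (htt : t * t + t = algebraMap k A a) (hta : ∀ x : k, x * x + x ≠ a)
    (hC : ∀ x : A, x * t = t * x → x ≠ 0 → IsUnit x) :
    ∃ S : Set (Place k), S.Finite ∧ ∀ V : Set (Place k), V.Finite → Disjoint V S →
      ∃ y : A, IsUnit y ∧ star y = y ∧ y * t = (t + 1) * y ∧
        Irreducible (minpoly k (y * y)) ∧ (minpoly k (y * y)).natDegree = m ∧
        (minpoly k (y * y)).Separable ∧
        (∀ v ∈ V, ((minpoly k (y * y)).map (algebraMap k v.comp)).Splits) ∧
        ∀ (F : Type) [Field F] [Algebra k F] (β : F),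
          Polynomial.aeval β (minpoly k (y * y)) = 0 → ∀ v ∈ V, ∀ ω : Place F, Ab ω v →
            H961.C2.LN2 ω (algebraMap k F ν) β := by
  classical
  have hsim := hA.simple
  have hfd : FiniteDimensional k A := Module.finite_of_finrank_pos (by
    rw [H519.finrank_of_anis hA]
    positivity)
  let B : Basis (Fin (finrank k A)) k A := Module.finBasis k A
  obtain ⟨S0, hS0, hνS, hloc⟩ := exists_local2 h2 hm hA B hκ hν hts htt hta hC
  refine ⟨S0, hS0, fun V hV hVS => ?_⟩
  obtain ⟨v1, hv1, -⟩ := exists_place_hom (M := k) hS0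
  choose! c jv ε hc0 hc hjv hε hball using hloc
  obtain ⟨V', hV'd⟩ : ∃ V' : Finset (Place k), V' = insert v1 hV.toFinset := ⟨_, rfl⟩
  have hV' : ∀ v ∈ V', v ∉ S0 := by
    intro v hv
    rw [hV'd, Finset.mem_insert] at hv
    rcases hv with rfl | hv
    · exact hv1
    · exact Set.disjoint_left.mp hVS (hV.mem_toFinset.mp hv)
  obtain ⟨pr, hpr1, hpr2⟩ := exists_proj2 hA h2 hκ hts htt
  obtain ⟨C, hC1, -, hCb⟩ := H698.lin_bd B B pr
  -- weak approximation
  obtain ⟨δ, hδ, hδle⟩ := pos_le (fun v : V' => ε (v : Place k) / (2 * C v))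
    fun v => div_pos (hε _ (hV' _ v.2)) (by have := hC1 v; linarith)
  choose y hy using fun i => H973.PF.weakP V' (fun v => B.repr (jv v) i) hδ
  obtain ⟨x, hx⟩ : ∃ x : A, x = ∑ i, y i • B i := ⟨_, rfl⟩
  have hxr : ∀ i, B.repr x i = y i := fun i => by
    rw [hx, B.repr_sum_self]
  have hxv : ∀ v ∈ V', Sm B v (ε v) (pr x - jv v) := by
    intro v hv
    have h1 : Bd B v δ (x - jv v) := fun i => by
      rw [map_sub, Finsupp.sub_apply, hxr]
      exact (hy i v hv).le
    have h3 := hCb v δ _ hδ.le h1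
    rw [map_sub, hpr2 _ (hjv v (hV' v hv))] at h3
    refine h3.sm ?_
    have h3 := hδle ⟨v, hv⟩
    have h4 : 0 < C v := zero_lt_one.trans_le (hC1 v)
    have h5 := hε v (hV' v hv)
    change δ ≤ ε v / (2 * C v) at h3
    rw [le_div_iff₀ (by positivity)] at h3
    linarith
  obtain ⟨z, hz⟩ : ∃ z, z = pr x := ⟨_, rfl⟩
  rw [← hz] at hxv
  have hzW : z ∈ W2 t := by rw [hz]; exact hpr1 x
  have hmem : v1 ∈ V' := by
    rw [hV'd]
    exact Finset.mem_insert_self _ _
  have hVV : ∀ v ∈ V, v ∈ V' := fun v hv => by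
    rw [hV'd]
    exact Finset.mem_insert_of_mem (hV.mem_toFinset.mpr hv)
  have hdat := fun v (hv : v ∈ V') => hball v (hV' v hv) z hzW (hxv v hv)
  have hint : IsIntegral k (z * z) := Algebra.IsIntegral.isIntegral _
  have hmon := minpoly.monic hint
  have hcomm : z * z * t = t * (z * z) := W2.sq_comm (two_A h2) hzW
  obtain ⟨hd1, hd2⟩ := hdat v1 hmem
  have hzz : z * z ≠ 0 := by
    intro h0
    have h3 := hd2 0 (Nat.zero_le _)
    rw [h0, minpoly.zero, coeff_X_zero, map_zero, eq_comm, map_eq_zero,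
      coeff_zero_prod] at h3
    rw [Finset.prod_eq_zero_iff] at h3
    obtain ⟨i, -, h6⟩ := h3
    rw [coeff_sub, coeff_X_zero, coeff_C_zero, zero_sub, neg_eq_zero] at h6
    exact pow_ne_zero 2 (hc0 v1 (hV' v1 hmem) i) h6
  have hzu : IsUnit z := by
    have h3 := hC _ hcomm hzz
    rw [← pow_two] at h3
    exact (isUnit_pow_iff two_ne_zero).mp h3
  refine ⟨z, hzu, hzW.1, hzW.2, irred_of_cent hC hcomm hint, hd1, ?_, fun v hv => ?_,
    fun F _ _ β hβ v hv ω hω => ?_⟩
  · exact (sep_splits (hc0 v1 (hV' v1 hmem)) (hc v1 (hV' v1 hmem)) hmon hd1 hd2).1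
  · have hv' := hVV v hv
    obtain ⟨g1, g2⟩ := hdat v hv'
    exact (sep_splits (hc0 v (hV' v hv')) (hc v (hV' v hv')) hmon g1 g2).2
  · have hv' := hVV v hv
    obtain ⟨g1, g2⟩ := hdat v hv'
    exact root_ln h2 (hc0 v (hV' v hv')) (hc v (hV' v hv')) hmon g1 g2 (hνS v (hV' v hv')) hβ hω

end Vale.Agent.P011.H543.C2
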