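import Vale.Agent.P011.H543.C2.Dens2
import Vale.Agent.P011.H872.GF.NewtC
import Vale.Agent.P011.H961.R5TwoLoc
import Mathlib.LinearAlgebra.Matrix.Charpoly.Univ

/-!
The local condition at almost all places: a ball of symmetric elements `y` with `y t = (t + 1) y`
whose squares have a minimal polynomial with Newton polygon of many slopes.
-/

open Matrix Module Polynomial Filter Topology

set_option linter.unusedSectionVars false

namespace Vale.Agent.P011.H543.C2

open Vale.Agent.P011.H738 Vale.Agent.P011.H271 Vale.Agent.P011.H487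
open Vale.Agent.P011.H961
open Vale.Agent.P011.H271.S3 (Ab)
open Vale.Agent.P011.H698 (Sm Bd)
open Vale.Agent.P011.H961.C2 (LN2 ln_unit)
open Vale.Agent.P011.H872.GF (norm_coeff_prod newton_of_roots newt_norm)

theorem cont_coeff {F : Type*} [CommRing F] [TopologicalSpace F]
    [IsTopologicalRing F] {n : Type*} [Fintype n] [DecidableEq n] (i : ℕ) :
    Continuous fun X : Matrix n n F => X.charpoly.coeff i := by
  have h1 : (fun X : Matrix n n F => X.charpoly.coeff i) = fun X : Matrix n n F =>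
      MvPolynomial.eval (fun p : n × n => X p.1 p.2) ((charpoly.univ F n).coeff i) := by
    funext X
    have h2 := charpoly.univ_coeff_eval₂Hom n (RingHom.id F) (fun p : n × n => X p.1 p.2) i
    have h3 : Matrix.of (Function.curry fun p : n × n => X p.1 p.2) = X := by
      ext a b
      rfl
    rw [h3] at h2
    exact h2.symm
  rw [h1]
  refine (MvPolynomial.continuous_eval _).comp (continuous_pi fun p => ?_)
  exact (continuous_apply p.2).comp (continuous_apply p.1)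

theorem exists_ball_at {L : Type*} [NontriviallyNormedField L] {n : ℕ}
    {U : Set (Matrix (Fin n) (Fin n) L)} {A : Matrix (Fin n) (Fin n) L} (hU : U ∈ 𝓝 A) :
    ∃ δ : ℝ, 0 < δ ∧ ∀ x, Eb δ (x - A) → x ∈ U := by
  let _ : NormedAddCommGroup (Matrix (Fin n) (Fin n) L) := Matrix.normedAddCommGroup
  obtain ⟨δ, hδ, h⟩ := (Metric.nhds_basis_closedBall (x := A)).mem_iff.mp hU
  refine ⟨δ, hδ, fun x hx => h ?_⟩
  rw [mem_closedBall_iff_norm, Matrix.norm_le_iff hδ.le]
  exact hx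

/-- The roots of a polynomial with the given sizes of coefficients. -/
theorem newt_data {k : Type} [Field k] {v : Place k} {m : ℕ} {c : Fin m → k}
    (hc0 : ∀ i, c i ≠ 0) (hc : ∀ i j, i < j → v.abv (c i) < v.abv (c j)) {μ : k[X]}
    (hμ : μ.Monic) (hdeg : μ.natDegree = m) (hco : ∀ i, i ≤ m → v.abv (μ.coeff i) =
      v.abv ((∏ i, (X - C (c i ^ 2)) : k[X]).coeff i))
    {E : Type} [NormedField E] [IsUltrametricDist E] [CompleteSpace E] (f : k →+* E) {e : ℝ}
    (he : 0 < e) (hf : ∀ x, ‖f x‖ = v.abv x ^ e) :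
    ∃ r : Fin m → E, μ.map f = ∏ i, (X - C (r i)) ∧ (∀ i j, i < j → ‖r i‖ < ‖r j‖) ∧
      ∀ i, ‖r i‖ = ‖f (c i)‖ ^ 2 := by
  obtain ⟨Q, hQ⟩ : ∃ Q : k[X], Q = ∏ i, (X - C (c i ^ 2)) := ⟨_, rfl⟩
  rw [← hQ] at hco
  have hQm : Q.map f = ∏ i, (X - C (f (c i) ^ 2)) := by
    rw [hQ, Polynomial.map_prod]
    exact Finset.prod_congr rfl fun i _ => by
      rw [Polynomial.map_sub, map_X, map_C, map_pow]
  have h1 : ∀ i, f (c i) ^ 2 ≠ 0 := fun i =>
    pow_ne_zero _ ((_root_.map_ne_zero _).mpr (hc0 i))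
  have h2 : ∀ i j, i < j → ‖f (c i) ^ 2‖ < ‖f (c j) ^ 2‖ := fun i j hij => by
    rw [norm_pow, norm_pow, hf, hf]
    exact pow_lt_pow_left₀ (Real.rpow_lt_rpow (v.abv.nonneg _) (hc i j hij) he)
      (Real.rpow_nonneg (v.abv.nonneg _) _) two_ne_zero
  obtain ⟨w1, w2⟩ := norm_coeff_prod m (fun i => f (c i) ^ 2) h1 h2
  have w3 := fun i hi0 hi => newton_of_roots (m := m) (r := fun i => f (c i) ^ 2) h1 h2 i hi0 hi
  rw [← hQm] at w1 w2 w3
  have w4 : ∀ i, i ≤ m → ‖(μ.map f).coeff i‖ = ‖(Q.map f).coeff i‖ := fun i hi => by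
    rw [coeff_map, coeff_map, hf, hf, hco i hi]
  obtain ⟨r, h3, h4, h5⟩ := newt_norm (P := μ.map f) (m := m) (hμ.map f)
    (by rw [natDegree_map, hdeg]) (by
      rw [← norm_ne_zero_iff, w4 0 (Nat.zero_le _), norm_ne_zero_iff]
      exact w1 0 (Nat.zero_le _)) fun i hi0 hi => by
        rw [w4 _ (by omega), w4 _ (by omega), w4 _ (by omega)]
        exact w3 i hi0 hi
  refine ⟨r, h5, h4, fun i => ?_⟩
  have h6 := h3 i
  have h7 := w2 i i.2
  rw [← w4 i i.2.le, ← w4 (i + 1) i.2, ← h6] at h7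
  have h8 : ‖(μ.map f).coeff (i + 1)‖ ≠ 0 := by
    rw [w4 _ i.2, norm_ne_zero_iff]
    exact w1 _ i.2
  have h9 := mul_right_cancel₀ h8 h7
  rw [h9, ← norm_pow]

theorem inj_of_lt {m : ℕ} {E : Type*} {f : E → ℝ} {r : Fin m → E}
    (h2 : ∀ i j, i < j → f (r i) < f (r j)) : Function.Injective r := by
  intro i j hij
  rcases lt_trichotomy i j with h | h | h
  · have := h2 i j h
    rw [hij] at this
    exact absurd this (lt_irrefl _)
  · exact h
  · have := h2 j i h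
    rw [hij] at this
    exact absurd this (lt_irrefl _)

theorem sep_splits {k : Type} [Field k] {v : Place k} {m : ℕ} {c : Fin m → k}
    (hc0 : ∀ i, c i ≠ 0) (hc : ∀ i j, i < j → v.abv (c i) < v.abv (c j)) {μ : k[X]}
    (hμ : μ.Monic) (hdeg : μ.natDegree = m) (hco : ∀ i, i ≤ m → v.abv (μ.coeff i) =
      v.abv ((∏ i, (X - C (c i ^ 2)) : k[X]).coeff i)) :
    μ.Separable ∧ (μ.map (algebraMap k v.comp)).Splits := by
  obtain ⟨r, h1, h2, -⟩ := newt_data hc0 hc hμ hdeg hco (algebraMap k v.comp) zero_lt_one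
    fun x => by rw [norm_alg, Real.rpow_one]
  refine ⟨?_, ?_⟩
  · rw [← Polynomial.separable_map (algebraMap k v.comp), h1]
    exact Polynomial.separable_prod_X_sub_C_iff.mpr (inj_of_lt (f := fun x => ‖x‖) h2)
  · rw [h1]
    exact Splits.prod fun i _ => Splits.X_sub_C _

/-- The roots are local norms from the unramified extension of `ν`. -/
theorem root_ln {k F : Type} [Field k] [Field F] [Algebra k F] (h2 : (2 : k) = 0) {v : Place k}
    {m : ℕ} {c : Fin m → k}
    (hc0 : ∀ i, c i ≠ 0) (hc : ∀ i j, i < j → v.abv (c i) < v.abv (c j)) {μ : k[X]}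
    (hμ : μ.Monic) (hdeg : μ.natDegree = m) (hco : ∀ i, i ≤ m → v.abv (μ.coeff i) =
      v.abv ((∏ i, (X - C (c i ^ 2)) : k[X]).coeff i)) {ν : k} (hν : v.abv ν ≤ 1)
    {β : F} (hβ : aeval β μ = 0) {ω : Place F} (hω : Ab ω v) :
    LN2 ω (algebraMap k F ν) β := by
  have h2F : (2 : F) = 0 := by rw [← map_ofNat (algebraMap k F) 2, h2, map_zero]
  obtain ⟨e, he, hωe⟩ := hω
  let f : k →+* ω.comp := (algebraMap F ω.comp).comp (algebraMap k F)
  have hf : ∀ x, ‖f x‖ = v.abv x ^ e := fun x => by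
    change ‖algebraMap F ω.comp (algebraMap k F x)‖ = _
    rw [norm_alg, hωe]
  obtain ⟨r, h1, -, h3⟩ := newt_data hc0 hc hμ hdeg hco f he hf
  have h4 : (μ.map f).eval (algebraMap F ω.comp β) = 0 := by
    rw [← Polynomial.map_map, eval_map, eval₂_hom, eval_map_algebraMap, hβ, map_zero]
  rw [h1, eval_prod, Finset.prod_eq_zero_iff] at h4
  obtain ⟨i, -, h5⟩ := h4
  rw [eval_sub, eval_X, eval_C, sub_eq_zero] at h5
  have h6 : ω.abv β = ω.abv (algebraMap k F (c i)) ^ 2 := by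
    have h7 := h3 i
    rw [← h5, norm_alg] at h7
    rw [h7]
    change ‖algebraMap F ω.comp (algebraMap k F (c i))‖ ^ 2 = _
    rw [norm_alg]
  obtain ⟨x, hx⟩ : ∃ x, x = algebraMap k F (c i) := ⟨_, rfl⟩
  have hc' : x ≠ 0 := by rw [hx]; exact (_root_.map_ne_zero _).mpr (hc0 i)
  rw [← hx] at h6
  have h8 : ω.abv (β / x ^ 2) = 1 := by
    rw [map_div₀, map_pow, h6, div_self (pow_ne_zero _ ((_root_.map_ne_zero ω.abv).mpr hc'))]
  have h9 : ω.abv (algebraMap k F ν) ≤ 1 := by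
    rw [hωe]
    exact Real.rpow_le_one (v.abv.nonneg _) hν he.le
  obtain ⟨y, z, hyz⟩ := ln_unit h2F h9 h8
  have hx' : algebraMap F ω.comp x ≠ 0 := (_root_.map_ne_zero _).mpr hc'
  refine ⟨y * algebraMap F ω.comp x, z * algebraMap F ω.comp x, ?_⟩
  rw [map_div₀, map_pow, eq_div_iff (pow_ne_zero 2 hx')] at hyz
  linear_combination hyz

variable {k K A : Type} [Field k] [Field K] [StarRing K] [Ring A] [StarRing A]
  [Algebra k K] [Algebra k A] [Algebra K A] [IsScalarTower k K A] [StarModule K A] {n m N : ℕ}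

/-- The local condition at `v` with radius `ε` and centre `jv`. -/
def BallAt (B : Basis (Fin N) k A) (v : Place k) (m : ℕ) (t : A) (c : Fin m → k) (jv : A)
    (ε : ℝ) : Prop :=
  ∀ y ∈ W2 t, Sm B v ε (y - jv) → (minpoly k (y * y)).natDegree = m ∧
    ∀ i, i ≤ m → v.abv ((minpoly k (y * y)).coeff i) =
      v.abv ((∏ i, (X - C (c i ^ 2)) : k[X]).coeff i)

/-- The minimal polynomial from sizes of the characteristic polynomial. -/
theorem minpoly_of_newt2 (h2 : (2 : k) = 0) (hm : 0 < m) (hA : Anis k K A (2 * m)) {t y : A}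
    (hy : y ∈ W2 t) {L : Type} [NontriviallyNormedField L] [IsUltrametricDist L]
    [CompleteSpace L] {φ : K →+* L} {g : A →+* Matrix (Fin (2 * m)) (Fin (2 * m)) L}
    (hg : ∀ c : K, g (algebraMap K A c) = algebraMap L _ (φ c)) {Q : L[X]}
    (h0 : Q.coeff 0 ≠ 0) (hQ : ∀ i, i ≤ m → ‖(g y).charpoly.coeff (2 * i)‖ = ‖Q.coeff i‖)
    (hN : ∀ i, 0 < i → i < m → ‖Q.coeff (i - 1)‖ * ‖Q.coeff (i + 1)‖ < ‖Q.coeff i‖ ^ 2) :
    (minpoly k (y * y)).natDegree = m ∧ ∀ i, i ≤ m →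
      ‖φ (algebraMap k K ((minpoly k (y * y)).coeff i))‖ = ‖Q.coeff i‖ := by
  have hcen := hA.central
  have hsim := hA.simple
  have hfin : FiniteDimensional K A := Module.finite_of_finrank_pos (by
    rw [hA.finrank_eq]
    positivity)
  let _ : Algebra K L := φ.toAlgebra
  have hkm : ∀ c : K, algebraMap K (Matrix (Fin (2 * m)) (Fin (2 * m)) L) c =
      algebraMap L (Matrix (Fin (2 * m)) (Fin (2 * m)) L) (φ c) := fun c => rfl
  let f : A →ₐ[K] Matrix (Fin (2 * m)) (Fin (2 * m)) L := { g with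
    commutes' := fun c => by
      rw [hkm]
      exact hg c }
  have hf : f y = g y := rfl
  have h2K : (2 : K) = 0 := by rw [← map_ofNat (algebraMap k K) 2, h2, map_zero]
  obtain ⟨R, hR1, hR2, hR3, hR4⟩ := exists_even h2K hm hA.finrank_eq f hy.2
  have hco : ∀ i, i ≤ m → ‖(R.map φ).coeff i‖ = ‖Q.coeff i‖ := fun i hi => by
    rw [← hQ i hi, ← hf, hR3, coeff_map, coeff_map, mul_comm, coeff_expand_mul two_pos]
    rfl
  obtain ⟨r, -, h4, h5⟩ := newt_norm (P := R.map φ) (m := m) (hR1.map φ)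
    (by rw [natDegree_map, hR2]) (by
      rw [← norm_ne_zero_iff, hco 0 (Nat.zero_le _), norm_ne_zero_iff]
      exact h0) fun i hi0 hi => by
        rw [hco _ (by omega), hco _ (by omega), hco _ (by omega)]
        exact hN i hi0 hi
  have hsep : R.Separable := by
    rw [← Polynomial.separable_map φ, h5]
    exact Polynomial.separable_prod_X_sub_C_iff.mpr (inj_of_lt (f := fun x => ‖x‖) h4)
  have h6 := eq_minpoly f hR1 hR3 hR4 hsep
  have h7 := minpoly_symm (k := k) hA.fixed star_smul (x := y * y)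
    (W2.sq_star hy)
  rw [h6] at h7
  have hmk : (minpoly k (y * y)).natDegree = m := by
    rw [← hR2, ← h7, natDegree_map]
  refine ⟨hmk, fun i hi => ?_⟩
  rw [← hco i hi, ← h7, coeff_map, coeff_map]

theorem exists_ball2 [GFF k] (h2 : (2 : k) = 0) (hm : 0 < m) (hA : Anis k K A (2 * m))
    (B : Basis (Fin N) k A) {t : A} {v : Place k} {L : Type} [NontriviallyNormedField L]
    [IsUltrametricDist L] [CompleteSpace L] {φ : K →+* L}
    (hφ : ∀ c : k, ‖φ (algebraMap k K c)‖ = v.abv c)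
    {g : A →+* Matrix (Fin (2 * m)) (Fin (2 * m)) L}
    (hg : ∀ c : K, g (algebraMap K A c) = algebraMap L _ (φ c)) {c : Fin m → k}
    (hc0 : ∀ i, c i ≠ 0) (hc : ∀ i j, i < j → v.abv (c i) < v.abv (c j))
    {Y : Matrix (Fin (2 * m)) (Fin (2 * m)) L} (hY : Y ∈ closure (g '' W2 t))
    (hYc : Y.charpoly = expand L 2 (∏ i, (X - C (φ (algebraMap k K (c i)) ^ 2)))) :
    ∃ jv ∈ W2 t, ∃ ε : ℝ, 0 < ε ∧ BallAt B v m t c jv ε := by
  let ψ : k →+* L := φ.comp (algebraMap k K)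
  obtain ⟨P, hP⟩ : ∃ P : k[X], P = ∏ i, (X - C (c i ^ 2)) := ⟨_, rfl⟩
  have hPm : P.map ψ = ∏ i, (X - C (ψ (c i) ^ 2)) := by
    rw [hP, Polynomial.map_prod]
    exact Finset.prod_congr rfl fun i _ => by
      rw [Polynomial.map_sub, map_X, map_C, map_pow]
  have hψ : ∀ c, ‖ψ c‖ = v.abv c := hφ
  have hYe : Y.charpoly = expand L 2 (P.map ψ) := by
    rw [hYc, hPm]
    rfl
  have hYi : ∀ i, Y.charpoly.coeff (2 * i) = ψ (P.coeff i) := fun i => by
    rw [hYe, mul_comm, coeff_expand_mul two_pos, coeff_map]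
  -- the Newton condition
  obtain ⟨w1, w2⟩ := norm_coeff_prod m (fun i => ψ (c i) ^ 2)
    (fun i => pow_ne_zero _ ((_root_.map_ne_zero _).mpr (hc0 i))) fun i j hij => by
      rw [norm_pow, norm_pow, hψ, hψ]
      exact pow_lt_pow_left₀ (hc i j hij) (v.abv.nonneg _) two_ne_zero
  have w3 := fun i hi0 hi => newton_of_roots (m := m) (r := fun i => ψ (c i) ^ 2)
    (fun i => pow_ne_zero _ ((_root_.map_ne_zero _).mpr (hc0 i))) (fun i j hij => by
      rw [norm_pow, norm_pow, hψ, hψ]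
      exact pow_lt_pow_left₀ (hc i j hij) (v.abv.nonneg _) two_ne_zero) i hi0 hi
  rw [← hPm] at w1 w2 w3
  -- the open set
  obtain ⟨O, hOd⟩ : ∃ O, O = (⋂ i : Fin (m + 1), {A : Matrix (Fin (2 * m)) (Fin (2 * m)) L |
      ‖A.charpoly.coeff (2 * i) - Y.charpoly.coeff (2 * i)‖ < ‖Y.charpoly.coeff (2 * i)‖}) :=
    ⟨_, rfl⟩
  have hOo : IsOpen O := by
    rw [hOd]
    exact isOpen_iInter_of_finite fun i =>
      isOpen_lt ((cont_coeff _).sub continuous_const).norm continuous_const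
  have hO : O ∈ 𝓝 Y := by
    refine hOo.mem_nhds ?_
    rw [hOd, Set.mem_iInter]
    intro i
    rw [Set.mem_ofPred_eq, sub_self, norm_zero, norm_pos_iff, hYi, ← coeff_map]
    exact w1 i (by omega)
  obtain ⟨_, hgO, jv, hjv, rfl⟩ := mem_closure_iff_nhds.mp hY O hO
  obtain ⟨δ, hδ, hδO⟩ := exists_ball_at (hOo.mem_nhds hgO)
  obtain ⟨C', hC, hup⟩ := H961.exists_up B v φ hφ hg
  have hC0 : 0 < C' := zero_lt_one.trans_le hC
  refine ⟨jv, hjv, δ / C', by positivity, fun j hj hsmj => ?_⟩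
  have h1 := hup _ _ (by positivity) hsmj.bd
  rw [mul_div_cancel₀ _ hC0.ne', map_sub] at h1
  have h2' := hδO _ h1
  rw [hOd, Set.mem_iInter] at h2'
  have h3 : ∀ i, i ≤ m → ‖(g j).charpoly.coeff (2 * i)‖ = ‖(P.map ψ).coeff i‖ := by
    intro i hi
    have h4 := h2' ⟨i, by omega⟩
    rw [Set.mem_ofPred_eq] at h4
    have h5 := IsUltrametricDist.norm_add_eq_max_of_norm_ne_norm h4.ne
    rw [sub_add_cancel, max_eq_right h4.le] at h5
    rw [h5, hYi, coeff_map]
  obtain ⟨h6, h7⟩ := minpoly_of_newt2 h2 hm hA hj hg (w1 0 (Nat.zero_le _)) h3 w3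
  refine ⟨h6, fun i hi => ?_⟩
  rw [← hφ, h7 i hi, coeff_map, hψ, hP]

end Vale.Agent.P011.H543.C2
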