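import Vale.Agent.P011.H872.GF.Diag

/-!
# Characteristic two: matrices `Y` with `Y J = (J + 1) Y` and given even characteristic polynomial

`J * J = J + ν` and `Y0 * Y0 = 1`, `Y0 * J = (J + 1) * Y0` are given; with and without a hermitian
form for which `J` has the adjoint `J + 1` and `Y0` is symmetric.
-/

open Matrix Module Polynomial

set_option linter.unusedSectionVars false

namespace Vale.Agent.P011.H543.C2

open Vale.Agent.P011.H487 Vale.Agent.P011.H872.GF

section pair

variable {F V : Type*} [Field F] [AddCommGroup V] [Module F V] {ν : F} {J Y0 : V →ₗ[F] V}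

theorem two_zero (h2 : (2 : F) = 0) (x : V) : x + x = 0 := by
  rw [← two_smul F x, h2, zero_smul]

variable (h2 : (2 : F) = 0) (hJ : ∀ x, J (J x) = J x + ν • x) (hY : ∀ x, Y0 (Y0 x) = x)
  (hYJ : ∀ x, Y0 (J x) = J (Y0 x) + Y0 x)
include h2 hJ hY hYJ

/-- The space is the sum of the fixed vectors and of their images by `J`. -/
theorem exists_equiv2 : ∃ e : (E1 Y0 × E1 Y0) ≃ₗ[F] V, ∀ x y : E1 Y0, e (x, y) = x + J y := by
  let g : (E1 Y0 × E1 Y0) →ₗ[F] V :=
    (E1 Y0).subtype.coprod (J.comp (E1 Y0).subtype)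
  have hg : ∀ x y : E1 Y0, g (x, y) = x + J y := fun x y => by
    rw [LinearMap.coprod_apply, LinearMap.comp_apply]
    rfl
  have hbij : Function.Bijective g := ?_
  · exact ⟨LinearEquiv.ofBijective g hbij, fun x y => by rw [LinearEquiv.ofBijective_apply, hg]⟩
  constructor
  · rw [← LinearMap.ker_eq_bot, Submodule.eq_bot_iff]
    rintro ⟨x, y⟩ hxy
    rw [LinearMap.mem_ker, hg] at hxy
    have h1 := congrArg Y0 hxy
    rw [map_add, hYJ, mem_E1.mp x.2, mem_E1.mp y.2, map_zero, ← add_assoc, hxy, zero_add] at h1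
    rw [h1, map_zero, add_zero] at hxy
    exact Prod.ext (Subtype.ext hxy) (Subtype.ext h1)
  · intro v
    have hy : Y0 v + v ∈ E1 Y0 := by
      rw [mem_E1, map_add, hY, add_comm]
    have hx : v + J (Y0 v + v) ∈ E1 Y0 := by
      rw [mem_E1, map_add, hYJ, mem_E1.mp hy]
      have : Y0 v + (J (Y0 v + v) + (Y0 v + v)) = (v + J (Y0 v + v)) + (Y0 v + Y0 v) := by abel
      rw [this, two_zero h2, add_zero]
    refine ⟨(⟨_, hx⟩, ⟨_, hy⟩), ?_⟩
    rw [hg]
    change v + J (Y0 v + v) + J (Y0 v + v) = v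
    rw [add_assoc, two_zero h2, add_zero]

/-- A basis adapted to `J`. -/
theorem exists_basis2 {ι : Type*} (b : Basis ι F (E1 Y0)) :
    ∃ P : Basis (ι ⊕ ι) F V, (∀ i, P (.inl i) = b i) ∧ ∀ i, P (.inr i) = J (b i) := by
  obtain ⟨e, he⟩ := exists_equiv2 h2 hJ hY hYJ
  refine ⟨(b.prod b).map e, fun i => ?_, fun i => ?_⟩
  · rw [Basis.map_apply, Basis.prod_apply, Sum.elim_inl, Function.comp_apply,
      LinearMap.inl_apply, he]
    simp
  · rw [Basis.map_apply, Basis.prod_apply, Sum.elim_inr, Function.comp_apply,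
      LinearMap.inr_apply, he]
    simp

/-- The dimension. -/
theorem finrank_E1' [FiniteDimensional F V] {m : ℕ} (hV : finrank F V = 2 * m) :
    finrank F (E1 Y0) = m := by
  obtain ⟨e, -⟩ := exists_equiv2 h2 hJ hY hYJ
  have h3 := e.finrank_eq
  rw [finrank_prod, hV] at h3
  omega

end pair

section diag

variable {F V : Type*} [Field F] [AddCommGroup V] [Module F V] {ν : F} {J : V →ₗ[F] V}

/-- The map with blocks `c, c, 0, c` in an adapted basis. -/
noncomputable def dg2 {ι : Type*} (P : Basis (ι ⊕ ι) F V) (c : ι → F) : V →ₗ[F] V :=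
  P.constr F (Sum.elim (fun i => c i • P (.inl i)) (fun i => c i • (P (.inr i) + P (.inl i))))

theorem dg2_inl {ι : Type*} (P : Basis (ι ⊕ ι) F V) (c : ι → F) (i : ι) :
    dg2 P c (P (.inl i)) = c i • P (.inl i) := by
  rw [dg2, Basis.constr_basis, Sum.elim_inl]

theorem dg2_inr {ι : Type*} (P : Basis (ι ⊕ ι) F V) (c : ι → F) (i : ι) :
    dg2 P c (P (.inr i)) = c i • (P (.inr i) + P (.inl i)) := by
  rw [dg2, Basis.constr_basis, Sum.elim_inr]

/-- The relation with `J`. -/
theorem dg2_rel {ι : Type*} (h2 : (2 : F) = 0) (P : Basis (ι ⊕ ι) F V) (c : ι → F)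
    (hJ : ∀ x, J (J x) = J x + ν • x)
    (hP : ∀ i, P (.inr i) = J (P (.inl i))) (x : V) :
    dg2 P c (J x) = J (dg2 P c x) + dg2 P c x := by
  have h1 : (dg2 P c).comp J = J.comp (dg2 P c) + dg2 P c := by
    refine P.ext fun i => ?_
    rcases i with i | i
    · rw [LinearMap.comp_apply, LinearMap.add_apply, LinearMap.comp_apply, dg2_inl, ← hP, dg2_inr,
        map_smul, ← hP, smul_add]
    · have e1 : dg2 P c (J (P (.inr i))) =
          c i • (P (.inr i) + P (.inl i)) + ν • c i • P (.inl i) := by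
        rw [hP, hJ, map_add, map_smul, ← hP, dg2_inr, dg2_inl]
      have e2 : J (P (.inr i)) = P (.inr i) + ν • P (.inl i) := by
        rw [hP, hJ]
      rw [LinearMap.comp_apply, LinearMap.add_apply, LinearMap.comp_apply, e1, dg2_inr, map_smul,
        map_add, e2, ← hP]
      have e3 : c i • (P (.inr i) + ν • P (.inl i) + P (.inr i)) = ν • c i • P (.inl i) := by
        have : P (.inr i) + ν • P (.inl i) + P (.inr i) =
            ν • P (.inl i) + (P (.inr i) + P (.inr i)) := by abel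
        rw [this, two_zero h2, add_zero, smul_comm]
      rw [e3, add_comm]
  have h3 := LinearMap.congr_fun h1 x
  rwa [LinearMap.comp_apply, LinearMap.add_apply, LinearMap.comp_apply] at h3

/-- Its characteristic polynomial. -/
theorem dg2_charpoly {ι : Type*} [Fintype ι] [DecidableEq ι] [FiniteDimensional F V]
    (h2 : (2 : F) = 0) (P : Basis (ι ⊕ ι) F V) (c : ι → F) :
    (dg2 P c).charpoly = expand F 2 (∏ i, (X - C (c i ^ 2))) := by
  rw [← LinearMap.charpoly_toMatrix (dg2 P c) P]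
  have h1 : LinearMap.toMatrix P P (dg2 P c) =
      Matrix.fromBlocks (diagonal c) (diagonal c) 0 (diagonal c) := by
    ext i j
    rw [LinearMap.toMatrix_apply]
    rcases j with j | j
    · rw [dg2_inl, map_smul, Basis.repr_self, Finsupp.smul_apply, smul_eq_mul]
      rcases i with i | i
      · rw [Matrix.fromBlocks_apply₁₁]
        by_cases hij : i = j
        · rw [hij, diagonal_apply_eq, Finsupp.single_eq_same, mul_one]
        · rw [diagonal_apply_ne _ hij, Finsupp.single_eq_of_ne (by simpa using hij),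
            mul_zero]
      · rw [Matrix.fromBlocks_apply₂₁, Matrix.zero_apply, Finsupp.single_eq_of_ne (by simp),
          mul_zero]
    · rw [dg2_inr, map_smul, map_add, Basis.repr_self, Basis.repr_self, Finsupp.smul_apply,
        smul_eq_mul, Finsupp.add_apply]
      rcases i with i | i
      · rw [Matrix.fromBlocks_apply₁₂]
        by_cases hij : i = j
        · rw [hij, diagonal_apply_eq, Finsupp.single_eq_same,
            Finsupp.single_eq_of_ne (by simp), zero_add, mul_one]
        · rw [diagonal_apply_ne _ hij, Finsupp.single_eq_of_ne (by simp),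
            Finsupp.single_eq_of_ne (by simpa using hij), add_zero, mul_zero]
      · rw [Matrix.fromBlocks_apply₂₂]
        by_cases hij : i = j
        · rw [hij, diagonal_apply_eq, Finsupp.single_eq_same,
            Finsupp.single_eq_of_ne (by simp), add_zero, mul_one]
        · rw [diagonal_apply_ne _ hij, Finsupp.single_eq_of_ne (by simpa using hij),
            Finsupp.single_eq_of_ne (by simp), add_zero, mul_zero]
  have h2' : (2 : F[X]) = 0 := by rw [← map_ofNat C 2, h2, map_zero]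
  rw [h1, Matrix.charpoly_fromBlocks_zero₂₁, charpoly_diagonal, map_prod,
    ← Finset.prod_mul_distrib]
  refine Finset.prod_congr rfl fun i _ => ?_
  rw [map_sub, expand_X, expand_C, C_pow]
  linear_combination (C (c i) ^ 2 - X * C (c i)) * h2'

end diag

section herm

variable {K V : Type*} [Field K] [StarRing K] [AddCommGroup V] [Module K V]
  {ν : K} {J Y0 : V →ₗ[K] V}

/-- A map is symmetric if it is so on a basis. -/
theorem sym_of_basis (h : HForm K V) {ι : Type*} (P : Basis ι K V) (Y : V →ₗ[K] V)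
    (hP : ∀ i j, h.b (Y (P i)) (P j) = h.b (P i) (Y (P j))) (x y : V) :
    h.b (Y x) y = h.b x (Y y) := by
  have h1 : ∀ j x, h.b (Y x) (P j) = h.b x (Y (P j)) := by
    intro j x
    let f : V →ₗ[K] K :=
      { toFun := fun x => h.b (Y x) (P j) - h.b x (Y (P j))
        map_add' := fun x y => by
          rw [map_add, h.add_left, h.add_left]
          ring
        map_smul' := fun c x => by
          rw [map_smul, h.smul_left, h.smul_left, RingHom.id_apply, smul_eq_mul]
          ring }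
    have hf : f = 0 := P.ext fun i => by
      change h.b (Y (P i)) (P j) - h.b (P i) (Y (P j)) = 0
      rw [hP, sub_self]
    exact sub_eq_zero.mp (LinearMap.congr_fun hf x)
  let f : V →ₗ[K] K :=
    { toFun := fun y => h.b y (Y x) - h.b (Y y) x
      map_add' := fun y z => by
        rw [map_add, h.add_left, h.add_left]
        ring
      map_smul' := fun c y => by
        rw [map_smul, h.smul_left, h.smul_left, RingHom.id_apply, smul_eq_mul]
        ring }
  have hf : f = 0 := P.ext fun j => by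
    change h.b (P j) (Y x) - h.b (Y (P j)) x = 0
    rw [← h.star_b (Y x), h1 j x, h.star_b, sub_self]
  have h2 : h.b y (Y x) - h.b (Y y) x = 0 := LinearMap.congr_fun hf y
  rw [← h.star_b y (Y x), sub_eq_zero.mp h2, h.star_b]

/-- **The symmetric map**, in an orthogonal adapted basis. -/
theorem exists_sym2 [FiniteDimensional K V] (hK : HForm.StarNT K) (h2 : (2 : K) = 0)
    (h : HForm K V) (hnd : h.Nondeg) (hJ : ∀ x, J (J x) = J x + ν • x)
    (hJs : ∀ x y, h.b (J x) y = h.b x (J y) + h.b x y) (hY : ∀ x, Y0 (Y0 x) = x)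
    (hYJ : ∀ x, Y0 (J x) = J (Y0 x) + Y0 x) (hYs : ∀ x y, h.b (Y0 x) y = h.b x (Y0 y)) {m : ℕ}
    (hV : finrank K V = 2 * m) (c : Fin m → K) (hc : ∀ i, star (c i) = c i) :
    ∃ Y : V →ₗ[K] V, (∀ x, Y (J x) = J (Y x) + Y x) ∧ (∀ x y, h.b (Y x) y = h.b x (Y y)) ∧
      Y.charpoly = expand K 2 (∏ i, (X - C (c i ^ 2))) := by
  have hcc : ∀ x : K, x + x = 0 := fun x => by linear_combination x * h2
  -- the fixed vectors are isotropic
  have hiso : ∀ x y : E1 Y0, h.b (x : V) y = 0 := by
    intro x y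
    have h1 : (x : V) = Y0 (J x) + J x := by
      rw [hYJ, mem_E1.mp x.2, add_assoc, add_comm (x : V), ← add_assoc, two_zero h2, zero_add]
    rw [h1, h.add_left, hYs, mem_E1.mp y.2, hcc]
  have hisoJ : ∀ x y : E1 Y0, h.b (J x) (J y) = 0 := by
    intro x y
    rw [hJs, hJ, h.add_right, h.smul_right, hiso, mul_zero, add_zero, hcc]
  let hh : HForm K (E1 Y0) :=
    { b := fun x y => h.b x (J y)
      add_left := fun x y z => h.add_left x y (J z)
      smul_left := fun c x y => h.smul_left c x (J y)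
      star_b := fun x y => by rw [h.star_b, hJs, hiso, add_zero] }
  have hhb : ∀ x y : E1 Y0, hh.b x y = h.b (x : V) (J y) := fun _ _ => rfl
  obtain ⟨e, he⟩ := exists_equiv2 h2 hJ hY hYJ
  have hhnd : hh.Nondeg := by
    intro x hx
    apply Subtype.ext
    have h1 : J (x : V) = 0 := by
      refine hnd _ fun z => ?_
      obtain ⟨⟨y, w⟩, rfl⟩ := e.surjective z
      have h3 : h.b (y : V) (J x) = 0 := hx y
      rw [he, h.add_left, h3, zero_add, hisoJ]
    have h3 := hYJ x
    rw [h1, map_zero, mem_E1.mp x.2, h1, zero_add] at h3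
    exact h3.symm
  obtain ⟨b, hb⟩ := exists_orth hK m (E1 Y0) hh hhnd inferInstance
    (finrank_E1' h2 hJ hY hYJ hV)
  obtain ⟨P, hP1, hP2⟩ := exists_basis2 h2 hJ hY hYJ b
  have hP : ∀ i, P (.inr i) = J (P (.inl i)) := fun i => by rw [hP2, hP1]
  have q1 : ∀ i j, h.b (P (.inl i)) (P (.inl j)) = 0 := fun i j => by
    rw [hP1, hP1]
    exact hiso _ _
  have q2 : ∀ i j, h.b (P (.inr i)) (P (.inr j)) = 0 := fun i j => by
    rw [hP2, hP2, hisoJ]
  have q3 : ∀ i j, i ≠ j → h.b (P (.inl i)) (P (.inr j)) = 0 := fun i j hij => by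
    rw [hP1, hP2]
    exact hb i j hij
  have q4 : ∀ i j, i ≠ j → h.b (P (.inr i)) (P (.inl j)) = 0 := fun i j hij =>
    h.eq_zero_symm (q3 j i (Ne.symm hij))
  refine ⟨dg2 P c, dg2_rel h2 P c hJ hP, sym_of_basis h P _ ?_, dg2_charpoly h2 P c⟩
  intro i j
  rcases i with i | i <;> rcases j with j | j
  · rw [dg2_inl, dg2_inl, h.smul_left, h.smul_right, q1, mul_zero, mul_zero]
  · rw [dg2_inl, dg2_inr, h.smul_left, h.smul_right, h.add_right, q1, add_zero]
    by_cases hij : i = j
    · rw [hij, hc]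
    · rw [q3 i j hij, mul_zero, mul_zero]
  · rw [dg2_inl, dg2_inr, h.smul_left, h.smul_right, h.add_left, q1, add_zero]
    by_cases hij : i = j
    · rw [hij, hc]
    · rw [q4 i j hij, mul_zero, mul_zero]
  · rw [dg2_inr, dg2_inr, h.smul_left, h.smul_right, h.add_left, h.add_right, q2, zero_add,
      zero_add]
    by_cases hij : i = j
    · subst hij
      have h3 : h.b (P (.inr i)) (P (.inl i)) = h.b (P (.inl i)) (P (.inr i)) := by
        rw [hP, hJs, q1, add_zero]
      rw [hc, h3]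
    · rw [q3 i j hij, q4 i j hij, mul_zero, mul_zero]

end herm

section mat

variable {F : Type*} [Field F] {n m : ℕ}

theorem mat_rel {J : Matrix (Fin n) (Fin n) F} {Y : (Fin n → F) →ₗ[F] (Fin n → F)}
    (h : ∀ x, Y (Matrix.toLin' J x) = Matrix.toLin' J (Y x) + Y x) :
    LinearMap.toMatrix' Y * J = J * LinearMap.toMatrix' Y + LinearMap.toMatrix' Y := by
  apply Matrix.toLin'.injective
  refine LinearMap.ext fun x => ?_
  rw [H872.GF.toLin_mul, map_add, LinearMap.add_apply, H872.GF.toLin_mul, Matrix.toLin'_toMatrix', h]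

/-- **Matrix form, without hermitian form.** -/
theorem exists_mat2 (h2 : (2 : F) = 0) {ν : F} (hn : n = 2 * m)
    {J Y0 : Matrix (Fin n) (Fin n) F} (hJ : J * J = J + ν • 1) (hY : Y0 * Y0 = 1)
    (hYJ : Y0 * J = J * Y0 + Y0) (c : Fin m → F) :
    ∃ Y : Matrix (Fin n) (Fin n) F, Y * J = J * Y + Y ∧
      Y.charpoly = expand F 2 (∏ i, (X - C (c i ^ 2))) := by
  have q1 : ∀ x, Matrix.toLin' J (Matrix.toLin' J x) = Matrix.toLin' J x + ν • x := fun x => by
    rw [← H872.GF.toLin_mul, hJ, map_add, LinearMap.add_apply, map_smul, LinearMap.smul_apply,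
      Matrix.toLin'_one, LinearMap.id_apply]
  have q2 : ∀ x, Matrix.toLin' Y0 (Matrix.toLin' Y0 x) = x := fun x => by
    rw [← H872.GF.toLin_mul, hY, Matrix.toLin'_one, LinearMap.id_apply]
  have q3 : ∀ x, Matrix.toLin' Y0 (Matrix.toLin' J x) =
      Matrix.toLin' J (Matrix.toLin' Y0 x) + Matrix.toLin' Y0 x :=
    fun x => by rw [← H872.GF.toLin_mul, hYJ, map_add, LinearMap.add_apply, H872.GF.toLin_mul]
  have hfr : finrank F (E1 (Matrix.toLin' Y0)) = m :=
    finrank_E1' h2 q1 q2 q3 (by rw [finrank_fin_fun, hn])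
  obtain ⟨P, hP1, hP2⟩ := exists_basis2 h2 q1 q2 q3
    (finBasisOfFinrankEq F (E1 (Matrix.toLin' Y0)) hfr)
  have hP : ∀ i, P (.inr i) = Matrix.toLin' J (P (.inl i)) := fun i => by rw [hP2, hP1]
  refine ⟨LinearMap.toMatrix' (dg2 P c), ?_, ?_⟩
  · exact mat_rel (dg2_rel h2 P c q1 hP)
  · rw [← LinearMap.toMatrix_eq_toMatrix', LinearMap.charpoly_toMatrix, dg2_charpoly h2]

end mat

section matherm

variable {F : Type*} [Field F] [StarRing F] {n m : ℕ}

/-- **Matrix form, with a hermitian form.** -/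
theorem exists_mat_herm2 (hK : HForm.StarNT F) (h2 : (2 : F) = 0) {ν : F}
    (hn : n = 2 * m) {H J Y0 : Matrix (Fin n) (Fin n) F} (hH : Hᴴ = H) (hdet : H.det ≠ 0)
    (hJ : J * J = J + ν • 1) (hJH : J * H = H * Jᴴ + H) (hY : Y0 * Y0 = 1)
    (hYJ : Y0 * J = J * Y0 + Y0) (hYH : Y0 * H = H * Y0ᴴ) (c : Fin m → F)
    (hc : ∀ i, star (c i) = c i) :
    ∃ Y : Matrix (Fin n) (Fin n) F, Y * J = J * Y + Y ∧ Y * H = H * Yᴴ ∧
      Y.charpoly = expand F 2 (∏ i, (X - C (c i ^ 2))) := by
  have hJJ := isHerm_inv hH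
  have hu : IsUnit H.det := isUnit_iff_ne_zero.2 hdet
  have q1 : ∀ x, Matrix.toLin' J (Matrix.toLin' J x) = Matrix.toLin' J x + ν • x := fun x => by
    rw [← H872.GF.toLin_mul, hJ, map_add, LinearMap.add_apply, map_smul, LinearMap.smul_apply,
      Matrix.toLin'_one, LinearMap.id_apply]
  have q2 : ∀ x, Matrix.toLin' Y0 (Matrix.toLin' Y0 x) = x := fun x => by
    rw [← H872.GF.toLin_mul, hY, Matrix.toLin'_one, LinearMap.id_apply]
  have q3 : ∀ x, Matrix.toLin' Y0 (Matrix.toLin' J x) =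
      Matrix.toLin' J (Matrix.toLin' Y0 x) + Matrix.toLin' Y0 x :=
    fun x => by rw [← H872.GF.toLin_mul, hYJ, map_add, LinearMap.add_apply, H872.GF.toLin_mul]
  have q5 := (adj_iff hdet hJJ Y0 1).mpr (by rw [one_smul, hYH])
  have q4 : ∀ x y, (colForm H⁻¹ hJJ).b (Matrix.toLin' J x) y =
      (colForm H⁻¹ hJJ).b x (Matrix.toLin' J y) + (colForm H⁻¹ hJJ).b x y := by
    have h1 : H⁻¹ * J = Jᴴ * H⁻¹ + H⁻¹ := by
      calc H⁻¹ * J = H⁻¹ * (J * H) * H⁻¹ := by
            rw [mul_assoc, mul_assoc, mul_nonsing_inv _ hu, mul_one]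
        _ = Jᴴ * H⁻¹ + H⁻¹ := by
            rw [hJH, mul_add, add_mul, ← mul_assoc, nonsing_inv_mul _ hu, one_mul, one_mul]
    intro x y
    rw [colForm_b, colForm_b, colForm_b, Matrix.toLin'_apply, Matrix.toLin'_apply, mulVec_mulVec,
      star_mulVec, ← dotProduct_mulVec, mulVec_mulVec, h1, add_mulVec, dotProduct_add]
  obtain ⟨Y, hY1, hY2, hY3⟩ := exists_sym2 hK h2 (colForm H⁻¹ hJJ) (colForm_nondeg hdet hJJ) q1
    q4 q2 q3 (fun x y => by rw [q5, one_mul])
    (by rw [finrank_fin_fun, hn]) c hc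
  refine ⟨LinearMap.toMatrix' Y, mat_rel hY1, ?_, ?_⟩
  · rw [← one_smul F (H * _)]
    refine (adj_iff hdet hJJ _ 1).mp fun x y => ?_
    rw [Matrix.toLin'_toMatrix', hY2, one_mul]
  · rw [← LinearMap.toMatrix_eq_toMatrix', LinearMap.charpoly_toMatrix, hY3]

end matherm

end Vale.Agent.P011.H543.C2
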