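import Vale.Agent.P011.H961.C2.Half

/-!
In characteristic two, an involution which exchanges the two eigenspaces of `J`, from an element
with integral minimal polynomial.
-/

open Matrix Module Polynomial Filter Topology

set_option linter.unusedSectionVars false

namespace Vale.Agent.P011.H543.C2

open Vale.Agent.P011.H961.C2.Half

section alg

variable {R : Type*} [Ring R]

/-- The algebra of the construction. -/
theorem invol_alg (h2 : ∀ x : R, x + x = 0) {r J Y c w ν : R} (hrJ : r * J = J * r)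
    (hrY : r * Y = Y * r) (hJ : J * J = J + ν) (hνr : ν * r = r * ν)
    (hYJ : Y * J = (J + 1) * Y)
    (hr : r + ν * (r * r) = c) (hYY : Y * Y = 1 + c) (hw : w * (1 + c) = 1)
    (hwJ : w * J = J * w) (hwY : w * Y = Y * w) (hwr : w * r = r * w) :
    w * ((1 + r * (J + 1)) * Y) * (w * ((1 + r * (J + 1)) * Y)) = 1 ∧
      w * ((1 + r * (J + 1)) * Y) * J = (J + 1) * (w * ((1 + r * (J + 1)) * Y)) ∧
      w * ((1 + r * (J + 1)) * Y) = Y * (1 + r * J) * w := by
  obtain ⟨Z, hZ⟩ : ∃ Z, Z = 1 + r * J := ⟨_, rfl⟩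
  obtain ⟨Z', hZ'⟩ : ∃ Z', Z' = 1 + r * (J + 1) := ⟨_, rfl⟩
  rw [← hZ, ← hZ']
  have hrJ1 : r * (J + 1) = (J + 1) * r := by rw [mul_add, add_mul, hrJ, mul_one, one_mul]
  have hZZ : Z' * Z = 1 + c := by
    have e1 : r * J * (r * J) = r * (r * J) + ν * (r * r) := by
      calc r * J * (r * J) = r * (J * r) * J := by simp only [mul_assoc]
        _ = r * r * (J * J) := by rw [← hrJ]; simp only [mul_assoc]
        _ = r * (r * J) + r * r * ν := by rw [hJ, mul_add, mul_assoc]
        _ = _ := by rw [← mul_assoc ν, hνr, mul_assoc r ν, hνr, mul_assoc]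
    have e2 : r * (r * J) = r * r * J := (mul_assoc _ _ _).symm
    have e3 : Z' * Z = 1 + (r * J + r * J) + (r * (r * J) + r * (r * J)) +
        (r + ν * (r * r)) := by
      rw [hZ', hZ, mul_add r J 1, mul_one]
      rw [add_mul, one_mul, add_mul, mul_add (r * J), mul_one, e1, mul_add r, mul_one]
      abel
    rw [e3, h2, h2, hr, add_zero, add_zero]
  have hYZ : Y * Z = Z' * Y := by
    rw [hZ, hZ', mul_add, mul_one, add_mul, one_mul, ← mul_assoc, ← hrY, mul_assoc, hYJ,
      ← mul_assoc]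
  have hYJ1 : Y * (J + 1) = J * Y := by
    rw [mul_add, mul_one, hYJ, add_mul, one_mul, add_assoc, h2, add_zero]
  have hYZ' : Y * Z' = Z * Y := by
    rw [hZ, hZ', mul_add, mul_one, add_mul, one_mul, ← mul_assoc, ← hrY, mul_assoc, hYJ1,
      ← mul_assoc]
  have hwZ' : w * Z' = Z' * w := by
    rw [hZ', mul_add, add_mul, mul_one, one_mul, ← mul_assoc, hwr, mul_assoc, mul_add, hwJ,
      mul_one, mul_assoc, add_mul, one_mul]
  have hwZ : w * Z = Z * w := by
    rw [hZ, mul_add, add_mul, mul_one, one_mul, ← mul_assoc, hwr, mul_assoc, hwJ, mul_assoc]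
  have hJZ' : Z' * (J + 1) = (J + 1) * Z' := by
    rw [hZ', add_mul, one_mul, mul_add (J + 1), mul_one, hrJ1, mul_assoc, ← hrJ1]
  have e : w * (Z' * Y) = Y * Z * w := by
    rw [hYZ, ← mul_assoc, hwZ', mul_assoc, hwY, ← mul_assoc]
  refine ⟨?_, ?_, e⟩
  · calc w * (Z' * Y) * (w * (Z' * Y)) = w * (Z' * Y) * (Y * Z * w) := by rw [← e]
      _ = w * (Z' * (Y * Y) * Z * w) := by simp only [mul_assoc]
      _ = w * (Z' * Z * (Z' * Z) * w) := by
        rw [hYY, ← hZZ]
        have h1 : Z' * Z = Z * Z' := by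
          rw [hZ, hZ', add_mul, one_mul, mul_add, mul_one, add_mul, one_mul, mul_add (r * J),
            mul_one]
          have h3 : r * (J + 1) * (r * J) = r * J * (r * (J + 1)) := by
            calc r * (J + 1) * (r * J) = r * ((J + 1) * r) * J := by simp only [mul_assoc]
              _ = r * r * ((J + 1) * J) := by rw [← hrJ1]; simp only [mul_assoc]
              _ = r * r * (J * (J + 1)) := by
                congr 1
                rw [add_mul, one_mul, mul_add, mul_one]
              _ = r * (r * J) * (J + 1) := by simp only [mul_assoc]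
              _ = r * (J * r) * (J + 1) := by rw [hrJ]
              _ = r * J * (r * (J + 1)) := by simp only [mul_assoc]
          rw [h3]
          abel
        congr 2
        calc Z' * (Z' * Z) * Z = Z' * (Z' * Z * Z) := by rw [mul_assoc]
          _ = Z' * (Z * Z' * Z) := by rw [h1]
          _ = Z' * Z * (Z' * Z) := by simp only [mul_assoc]
      _ = (w * (1 + c)) * ((1 + c) * w) := by
        rw [hZZ]
        simp only [mul_assoc]
      _ = 1 := by
        rw [hw, one_mul]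
        have h4 : (1 + c) * w = w * (1 + c) := by
          rw [← hZZ, mul_assoc, ← hwZ, ← mul_assoc, ← hwZ', mul_assoc]
        rw [h4, hw]
  · have h5 : w * (J + 1) = (J + 1) * w := by rw [mul_add, add_mul, hwJ, mul_one, one_mul]
    rw [mul_assoc, mul_assoc Z', hYJ, ← mul_assoc Z', hJZ', mul_assoc, ← mul_assoc w, h5,
      mul_assoc]

/-- The square commutes with `J`. -/
theorem sq_swap (h2 : ∀ x : R, x + x = 0) {J Y : R} (hYJ : Y * J = (J + 1) * Y) :
    Y * Y * J = J * (Y * Y) := by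
  have h1 : Y * (J + 1) = J * Y := by
    rw [mul_add, mul_one, hYJ, add_mul, one_mul, add_assoc, h2, add_zero]
  rw [mul_assoc, hYJ, ← mul_assoc, h1, mul_assoc]

/-- Odd powers. -/
theorem odd_pow_swap (h2 : ∀ x : R, x + x = 0) {J Y : R} (hYJ : Y * J = (J + 1) * Y) {M : ℕ}
    (hM : Odd M) : Y ^ M * J = (J + 1) * Y ^ M := by
  obtain ⟨l, rfl⟩ := hM
  have h1 : Y * Y * J = J * (Y * Y) := sq_swap h2 hYJ
  have h3 : Commute (Y * Y) J := h1
  have h4 : (Y * Y) ^ l * J = J * (Y * Y) ^ l := (h3.pow_left l)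
  rw [pow_succ, pow_mul, pow_two, mul_assoc, hYJ, ← mul_assoc]
  have h5 : (Y * Y) ^ l * (J + 1) = (J + 1) * (Y * Y) ^ l := by
    rw [mul_add, add_mul, h4, mul_one, one_mul]
  rw [h5, mul_assoc]

end alg

variable {L : Type*} [NontriviallyNormedField L] [IsUltrametricDist L] {n : ℕ}

/-- **The involution.** -/
theorem exists_invol2 [ProperSpace L] (h2 : (2 : L) = 0) {ν : L} (hν : ‖ν‖ ≤ 1)
    {J Y : Matrix (Fin n) (Fin n) L} (hJ : J * J = J + ν • (1 : Matrix (Fin n) (Fin n) L))
    (hYJ : Y * J = J * Y + Y) {f : L[X]} (hf : f.Monic) (hfb : aeval (Y * Y) f = 0)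
    (hint : ∀ i, ‖f.coeff i‖ ≤ 1) (h0 : ‖f.coeff 0‖ = 1) :
    ∃ Y1 : Matrix (Fin n) (Fin n) L, Y1 * Y1 = 1 ∧ Y1 * J = J * Y1 + Y1 ∧
      ∀ σ : Matrix (Fin n) (Fin n) L → Matrix (Fin n) (Fin n) L, Continuous σ →
        (∀ x y, σ (x + y) = σ x + σ y) → (∀ x y, σ (x * y) = σ y * σ x) → σ 1 = 1 →
        (∀ x, σ (ν • x) = ν • σ x) → σ J = J + 1 → σ Y = Y → σ Y1 = Y1 := by
  have h2M : ∀ x : Matrix (Fin n) (Fin n) L, x + x = 0 := two_zero (mat_two h2)
  have hYJ' : Y * J = (J + 1) * Y := by rw [hYJ, add_mul, one_mul]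
  obtain ⟨M, hM, hT⟩ := exists_odd_pow h2 hf hfb hint h0
  obtain ⟨c, hc⟩ : ∃ c, c = (Y * Y) ^ M - 1 := ⟨_, rfl⟩
  rw [← hc] at hT
  obtain ⟨r, hr, -, hu, hcl⟩ := exists_half h2 hν hT
  rw [add_assoc, hr] at hu
  have hcb : (Y * Y) ^ M = 1 + c := by rw [hc, add_sub_cancel]
  -- commutation with the odd power and with `J`
  have hYY : Commute (Y * Y) Y := by
    change Y * Y * Y = Y * (Y * Y)
    rw [mul_assoc]
  have hYYJ : Commute (Y * Y) J := by
    exact sq_swap h2M hYJ'
  have hcY : Commute c (Y ^ M) := by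
    rw [hc]
    exact ((hYY.pow_pow M M)).sub_left (Commute.one_left _)
  have hcJ : Commute c J := by
    rw [hc]
    exact (hYYJ.pow_left M).sub_left (Commute.one_left _)
  have hcen : ∀ X : Matrix (Fin n) (Fin n) L, Commute c X → Commute r X := by
    intro X hX
    refine hcl {Z | Z * X = X * Z} (isClosed_eq (continuous_id.mul continuous_const)
      (continuous_const.mul continuous_id)) fun j => ?_
    rw [Set.mem_ofPred_eq, Finset.sum_mul, Finset.mul_sum]
    refine Finset.sum_congr rfl fun i _ => ?_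
    rw [smul_mul_assoc, mul_smul_comm, (hX.pow_left _).eq]
  have hrY := hcen _ hcY
  have hrJ := hcen _ hcJ
  have hrc : Commute r c := hcen c (Commute.refl c)
  obtain ⟨u, hud⟩ := hu
  have hwc : (↑u⁻¹ : Matrix (Fin n) (Fin n) L) * (1 + c) = 1 := by rw [← hud, Units.inv_mul]
  have hcw : (1 + c) * (↑u⁻¹ : Matrix (Fin n) (Fin n) L) = 1 := by rw [← hud, Units.mul_inv]
  have hwX : ∀ X : Matrix (Fin n) (Fin n) L, Commute c X →
      (↑u⁻¹ : Matrix (Fin n) (Fin n) L) * X = X * (↑u⁻¹ : Matrix (Fin n) (Fin n) L) := by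
    intro X hX
    have h5 : Commute (u : Matrix (Fin n) (Fin n) L) X := by
      rw [hud]
      exact (Commute.one_left _).add_left hX
    exact h5.units_inv_left.eq
  obtain ⟨N, hN⟩ : ∃ N : Matrix (Fin n) (Fin n) L, N = ν • 1 := ⟨_, rfl⟩
  have hNX : ∀ X, N * X = X * N := fun X => by
    rw [hN, smul_mul_assoc, one_mul, mul_smul_comm, mul_one]
  rw [← hN] at hJ
  have hr' : r + N * (r * r) = c := by rw [hN, smul_mul_assoc, one_mul, hr]
  have hYM : Y ^ M * Y ^ M = 1 + c := by
    rw [← hcb, (Commute.refl Y).mul_pow]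
  obtain ⟨g1, g2, g3⟩ := invol_alg h2M hrJ.eq hrY.eq hJ (hNX _)
    (odd_pow_swap h2M hYJ' hM) hr' hYM hwc (hwX _ hcJ) (hwX _ hcY) (hwX _ hrc.symm)
  refine ⟨_, g1, ?_, fun σ hσc hadd hmul hone hsm hσJ hσY => ?_⟩
  · rw [g2, add_mul, one_mul]
  · have hz : σ 0 = 0 := by
      have h := hadd 0 0
      rw [add_zero] at h
      exact left_eq_add.mp h
    have hσpow : ∀ (X : Matrix (Fin n) (Fin n) L) (l : ℕ), σ (X ^ l) = σ X ^ l := by
      intro X l
      induction l with
      | zero => rw [pow_zero, pow_zero, hone]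
      | succ l ih => rw [pow_succ, hmul, ih, ← pow_succ']
    have hσνp : ∀ (l : ℕ) (X : Matrix (Fin n) (Fin n) L), σ (ν ^ l • X) = ν ^ l • σ X := by
      intro l
      induction l with
      | zero => intro X; rw [pow_zero, one_smul, one_smul]
      | succ l ih => intro X; rw [pow_succ, mul_smul, ih, hsm, mul_smul]
    have hσsum : ∀ (J : ℕ) (F : ℕ → Matrix (Fin n) (Fin n) L),
        σ (∑ j ∈ Finset.range J, F j) = ∑ j ∈ Finset.range J, σ (F j) := by
      intro J F
      induction J with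
      | zero => rw [Finset.sum_range_zero, Finset.sum_range_zero, hz]
      | succ J ih => rw [Finset.sum_range_succ, hadd, ih, Finset.sum_range_succ]
    have hσc' : σ (1 + c) = 1 + c := by
      rw [← hcb, hσpow, hmul, hσY]
    have hσcc : σ c = c := by
      rw [hadd, hone] at hσc'
      exact add_left_cancel hσc'
    have hσr : σ r = r := by
      refine hcl {Z | σ Z = Z} (isClosed_eq hσc continuous_id) fun j => ?_
      rw [Set.mem_ofPred_eq, hσsum]
      exact Finset.sum_congr rfl fun i _ => by rw [hσνp, hσpow, hσcc]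
    have hσw : σ (↑u⁻¹ : Matrix (Fin n) (Fin n) L) = ↑u⁻¹ := by
      have h5 : σ (↑u⁻¹ : Matrix (Fin n) (Fin n) L) * (1 + c) = 1 := by
        rw [← hσc', ← hmul, hcw, hone]
      calc σ (↑u⁻¹ : Matrix (Fin n) (Fin n) L)
          = σ (↑u⁻¹ : Matrix (Fin n) (Fin n) L) * ((1 + c) * ↑u⁻¹) := by rw [hcw, mul_one]
        _ = _ := by rw [← mul_assoc, h5, one_mul]
    have hσJ1 : σ (J + 1) = J := by
      rw [hadd, hσJ, hone, add_assoc, h2M, add_zero]
    rw [hmul, hmul, hadd, hone, hmul, hσw, hσpow, hσY, hσr, hσJ1, ← hrJ.eq, ← g3]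

end Vale.Agent.P011.H543.C2
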