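import Mathlib

/-!
# The characteristic polynomial of a matrix `Y` with `Y T = (T + 1) Y` is even

In characteristic two, for matrices of even size.
-/

open Matrix Polynomial

namespace Vale.Agent.P011.H543.C2

section smul

variable {R : Type*} [CommRing R] {n : ℕ}

/-- The characteristic polynomial of a multiple. -/
theorem charpoly_smul_comp (c : R) (M : Matrix (Fin n) (Fin n) R) :
    (c • M).charpoly.comp (C c * X) = C (c ^ n) * M.charpoly := by
  have h1 : (c • M).charpoly.comp (C c * X) =
      (C c • M.charmatrix : Matrix (Fin n) (Fin n) R[X]).det := by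
    rw [Matrix.charpoly, ← Polynomial.coe_compRingHom_apply, RingHom.map_det]
    congr 1
    ext1 i j
    rw [RingHom.mapMatrix_apply, Matrix.map_apply, Matrix.smul_apply, smul_eq_mul,
      Matrix.charmatrix_apply, Matrix.charmatrix_apply, Matrix.smul_apply, smul_eq_mul,
      Polynomial.coe_compRingHom_apply, Polynomial.sub_comp, Polynomial.C_comp, map_mul, mul_sub]
    congr 1
    by_cases h : i = j
    · subst h
      rw [Matrix.diagonal_apply_eq, Polynomial.X_comp]
    · rw [Matrix.diagonal_apply_ne _ h, Polynomial.zero_comp, mul_zero]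
  rw [h1, Matrix.det_smul, Fintype.card_fin, ← map_pow]
  rfl

theorem coeff_charpoly_smul (c : R) (M : Matrix (Fin n) (Fin n) R) (i : ℕ) :
    (c • M).charpoly.coeff i * c ^ i = c ^ n * M.charpoly.coeff i := by
  have h := congrArg (fun P => Polynomial.coeff P i) (charpoly_smul_comp c M)
  rwa [comp_C_mul_X_coeff, coeff_C_mul] at h

end smul

section dual

variable {L : Type*} [Field L] {n : ℕ}

/-- **Evenness.** -/
theorem coeff_charpoly_odd (h2 : (2 : L) = 0) (hn : Even n) {Y T : Matrix (Fin n) (Fin n) L}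
    (h : Y * T = (T + 1) * Y) {i : ℕ} (hi : Odd i) : Y.charpoly.coeff i = 0 := by
  -- the dual numbers
  obtain ⟨e, he⟩ : ∃ e : DualNumber L, e = DualNumber.eps := ⟨_, rfl⟩
  have hee : e * e = 0 := by rw [he]; exact DualNumber.eps_mul_eps
  obtain ⟨φ, hφ⟩ : ∃ φ : L →+* DualNumber L, φ = algebraMap L (DualNumber L) := ⟨_, rfl⟩
  have hkey : ∀ x : L, e * φ x = 0 → x = 0 := by
    intro x hx
    rw [he, hφ] at hx
    have h1 := congrArg TrivSqZeroExt.snd hx
    simpa [TrivSqZeroExt.algebraMap_eq_inl] using h1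
  have h2' : (2 : DualNumber L) = 0 := by
    rw [← map_ofNat φ 2, h2, map_zero]
  obtain ⟨Y', hY'⟩ : ∃ Y' : Matrix (Fin n) (Fin n) (DualNumber L), Y' = Y.map φ := ⟨_, rfl⟩
  obtain ⟨T', hT'⟩ : ∃ T' : Matrix (Fin n) (Fin n) (DualNumber L), T' = T.map φ := ⟨_, rfl⟩
  have hm : Y' * T' = (T' + 1) * Y' := by
    have h3 := congrArg (fun M => φ.mapMatrix M) h
    simp only [map_mul, map_add, map_one] at h3
    rw [hY', hT']
    exact h3
  have hchar : Y'.charpoly = Y.charpoly.map φ := by
    rw [hY', Matrix.charpoly_map]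
  obtain ⟨U, hU⟩ : ∃ U : Matrix (Fin n) (Fin n) (DualNumber L), U = 1 + e • T' := ⟨_, rfl⟩
  have hUU : U * U = 1 := by
    have h3 : U * U = 1 + (2 : DualNumber L) • (e • T') + (e * e) • (T' * T') := by
      rw [hU, mul_add, add_mul, add_mul, one_mul, mul_one, smul_mul_smul_comm, one_mul, two_smul]
      abel
    rw [h3, h2', hee, zero_smul, zero_smul, add_zero, add_zero]
  have hconj : U * Y' * U = (1 + e) • Y' := by
    have h3 : U * Y' * U = Y' + e • (T' * Y' + Y' * T') + (e * e) • (T' * Y' * T') := by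
      rw [hU, add_mul, one_mul, mul_add, mul_one, add_mul, smul_mul_assoc, mul_smul_comm,
        smul_mul_smul_comm, smul_add]
      abel
    have h4 : T' * Y' + Y' * T' = Y' := by
      rw [hm, add_mul, one_mul, ← add_assoc, ← two_smul (DualNumber L) (T' * Y'), h2', zero_smul,
        zero_add]
    rw [h3, h4, hee, zero_smul, add_zero, add_smul, one_smul]
  have hcp : ((1 + e) • Y').charpoly = Y'.charpoly := by
    rw [← hconj]
    let u : (Matrix (Fin n) (Fin n) (DualNumber L))ˣ := ⟨U, U, hUU, hUU⟩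
    have h3 := Matrix.charpoly_units_conj u Y'
    have h4 : (((u⁻¹ : (Matrix (Fin n) (Fin n) (DualNumber L))ˣ)) :
        Matrix (Fin n) (Fin n) (DualNumber L)) = U := rfl
    have h5 : ((u : (Matrix (Fin n) (Fin n) (DualNumber L))ˣ) :
        Matrix (Fin n) (Fin n) (DualNumber L)) = U := rfl
    rwa [← Matrix.coe_units_inv, h4, h5] at h3
  have hc := coeff_charpoly_smul (1 + e) Y' i
  rw [hcp, hchar, coeff_map] at hc
  have hpow : ∀ l : ℕ, (1 + e) ^ l = 1 + (l : DualNumber L) * e := by
    intro l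
    induction l with
    | zero => simp
    | succ l ih =>
      rw [pow_succ, ih, Nat.cast_succ]
      linear_combination ((l : DualNumber L)) * hee
  obtain ⟨l, hl⟩ := hn
  obtain ⟨j, hj⟩ := hi
  have hl' : (n : DualNumber L) = l + l := by rw [← Nat.cast_add, ← hl]
  have hj' : (i : DualNumber L) = 2 * j + 1 := by rw [hj]; push_cast; rfl
  rw [hpow, hpow, hl', hj'] at hc
  apply hkey
  obtain ⟨p, hp⟩ : ∃ p, p = φ (Y.charpoly.coeff i) := ⟨_, rfl⟩
  rw [← hp]
  rw [← hp] at hc
  linear_combination hc + (l * e * p - j * e * p) * h2'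

/-- The even characteristic polynomial. -/
theorem exists_expand (h2 : (2 : L) = 0) (hn : Even n) {Y T : Matrix (Fin n) (Fin n) L}
    (h : Y * T = (T + 1) * Y) : expand L 2 (contract 2 Y.charpoly) = Y.charpoly := by
  ext i
  rw [coeff_expand two_pos]
  by_cases hi : 2 ∣ i
  · rw [if_pos hi, coeff_contract two_ne_zero, Nat.div_mul_cancel hi]
  · rw [if_neg hi, coeff_charpoly_odd h2 hn h]
    rwa [← Nat.not_even_iff_odd, even_iff_two_dvd]

end dual

end Vale.Agent.P011.H543.C2
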