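import Vale.Agent.P011.H268.Nrd
import Vale.Agent.P011.H543.C2.Even
import Mathlib.LinearAlgebra.Matrix.Charpoly.Eigs

/-!
# The minimal polynomial of `y * y` from the reduced characteristic polynomial of `y`

For `y` with `y t = (t + 1) y`, in characteristic two.
-/

open Polynomial Module

namespace Vale.Agent.P011.H543.C2

section gen

variable {K A Ω : Type*} [Field K] [Ring A] [Algebra K A] [Field Ω] [Algebra K Ω] {n : ℕ}

/-- An irreducible factor of the reduced characteristic polynomial divides the minimal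
polynomial. -/
theorem dvd_minpoly_of_dvd_charpoly (f : A →ₐ[K] Matrix (Fin n) (Fin n) Ω) (w : A)
    {P q : K[X]} (hP : (f w).charpoly = P.map (algebraMap K Ω)) (hq : Irreducible q)
    (hqP : q ∣ P) : q ∣ minpoly K w := by
  by_contra hcon
  have hcop : IsCoprime q (minpoly K w) := (hq.coprime_iff_not_dvd).mpr hcon
  obtain ⟨a, b, hab⟩ := hcop
  have h1 : aeval (f w) a * aeval (f w) q = 1 := by
    have h2 : aeval (f w) (minpoly K w) = 0 := by
      rw [aeval_algHom_apply, minpoly.aeval, map_zero]
    have h3 := congrArg (aeval (f w)) hab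
    rw [map_add, map_mul, map_mul, h2, mul_zero, add_zero, map_one] at h3
    exact h3
  let Ω' := AlgebraicClosure Ω
  let i : Ω →+* Ω' := algebraMap Ω Ω'
  let j : K →+* Ω' := i.comp (algebraMap K Ω)
  obtain ⟨α, hα⟩ : ∃ α : Ω', (q.map j).IsRoot α := by
    apply IsAlgClosed.exists_root
    rw [degree_map]
    exact (degree_pos_of_irreducible hq).ne'
  have hPα : (P.map j).IsRoot α := hα.dvd (map_dvd j hqP)
  have hdet : (i.mapMatrix (f w) - Matrix.scalar (Fin n) α).det = 0 := by
    have h4 : (i.mapMatrix (f w)).charpoly.eval α = 0 := by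
      rw [RingHom.mapMatrix_apply, Matrix.charpoly_map, hP, Polynomial.map_map]
      exact hPα
    rw [Matrix.eval_charpoly] at h4
    rw [← neg_sub, Matrix.det_neg, h4, mul_zero]
  have h5 : (X - C α) ∣ q.map j := dvd_iff_isRoot.mpr hα
  obtain ⟨q', hq'⟩ := h5
  have h6 : aeval (i.mapMatrix (f w)) (q.map j) = i.mapMatrix (aeval (f w) q) := by
    rw [aeval_def, eval₂_map, aeval_def, hom_eval₂]
    congr 1
    ext c x y
    simp [j, i, Matrix.algebraMap_matrix_apply, Matrix.map_apply]
    split_ifs <;> simp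
  have h7 : (i.mapMatrix (aeval (f w) q)).det = 0 := by
    rw [← h6, hq', map_mul, Matrix.det_mul, aeval_sub, aeval_X, aeval_C]
    have h8 : (algebraMap Ω' (Matrix (Fin n) (Fin n) Ω')) α = Matrix.scalar (Fin n) α := rfl
    rw [h8, hdet, zero_mul]
  have h9 : (i.mapMatrix (aeval (f w) a * aeval (f w) q)).det = 1 := by
    rw [h1, map_one, Matrix.det_one]
  rw [map_mul, Matrix.det_mul, h7, mul_zero] at h9
  exact zero_ne_one h9

end gen

section csa

variable {K A Ω : Type*} [Field K] [Ring A] [Algebra K A] [Algebra.IsCentral K A]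
  [IsSimpleRing A] [FiniteDimensional K A] [Field Ω] [Algebra K Ω] {m : ℕ}

/-- The even reduced characteristic polynomial. -/
theorem exists_even (h2 : (2 : K) = 0) (hm : 0 < m) (hA : finrank K A = (2 * m) ^ 2)
    (f : A →ₐ[K] Matrix (Fin (2 * m)) (Fin (2 * m)) Ω) {y t : A} (h : y * t = (t + 1) * y) :
    ∃ R : K[X], R.Monic ∧ R.natDegree = m ∧
      (f y).charpoly = (expand K 2 R).map (algebraMap K Ω) ∧ aeval (y * y) R = 0 := by
  have hn : 0 < 2 * m := by omega
  have : NeZero (2 * m) := ⟨hn.ne'⟩
  obtain ⟨P, hPm, hPd, hP⟩ := H268.exists_charpoly hn hA f y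
  have h2Ω : (2 : Ω) = 0 := by rw [← map_ofNat (algebraMap K Ω) 2, h2, map_zero]
  have hfy : f y * f t = (f t + 1) * f y := by
    rw [← map_mul, h, map_mul, map_add, map_one]
  have hodd : ∀ i, ¬ 2 ∣ i → P.coeff i = 0 := by
    intro i hi
    have h3 := coeff_charpoly_odd h2Ω ⟨m, by ring⟩ hfy (i := i) (by
      rwa [← Nat.not_even_iff_odd, even_iff_two_dvd])
    rw [hP, coeff_map, _root_.map_eq_zero] at h3
    exact h3
  have hex : expand K 2 (contract 2 P) = P := by
    ext i
    rw [coeff_expand two_pos]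
    by_cases hi : 2 ∣ i
    · rw [if_pos hi, coeff_contract two_ne_zero, Nat.div_mul_cancel hi]
    · rw [if_neg hi, hodd i hi]
  obtain ⟨R, hR⟩ : ∃ R, R = contract 2 P := ⟨_, rfl⟩
  rw [← hR] at hex
  have hd : R.natDegree = m := by
    have h3 := congrArg natDegree hex
    rw [natDegree_expand, hPd] at h3
    omega
  have hRm : R.Monic := by
    rw [Monic, ← leadingCoeff_expand (p := 2) two_pos, hex]
    exact hPm
  refine ⟨R, hRm, hd, by rw [hex, hP], ?_⟩
  have hinj : Function.Injective f := f.toRingHom.injective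
  apply hinj
  rw [map_zero, ← aeval_algHom_apply, map_mul, ← pow_two, ← expand_aeval, hex,
    ← aeval_map_algebraMap Ω, ← hP]
  exact Matrix.aeval_self_charpoly _

omit [Algebra.IsCentral K A] [IsSimpleRing A] in
/-- If `R` is separable it is the minimal polynomial of `y * y`. -/
theorem eq_minpoly (f : A →ₐ[K] Matrix (Fin (2 * m)) (Fin (2 * m)) Ω) {y : A} {R : K[X]}
    (hRm : R.Monic) (hP : (f y).charpoly = (expand K 2 R).map (algebraMap K Ω))
    (hR0 : aeval (y * y) R = 0) (hs : R.Separable) : minpoly K (y * y) = R := by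
  have hint : IsIntegral K (y * y) := Algebra.IsIntegral.isIntegral _
  obtain ⟨h, hh⟩ := minpoly.dvd K (y * y) hR0
  have hgm := minpoly.monic hint
  obtain ⟨g, hg⟩ : ∃ g, g = minpoly K (y * y) := ⟨_, rfl⟩
  rw [← hg] at hh hgm ⊢
  have hhm : h.Monic := by
    have h3 : (g * h).Monic := hh ▸ hRm
    exact hgm.of_mul_monic_left h3
  have hu : IsUnit h := by
    by_contra hcon
    obtain ⟨q, hq, hqh⟩ := WfDvdMonoid.exists_irreducible_factor hcon hhm.ne_zero
    have hqg : ¬ q ∣ g := by
      intro hqg
      have h3 : q * q ∣ R := by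
        rw [hh]
        exact mul_dvd_mul hqg hqh
      exact hq.not_isUnit (hs.squarefree q h3)
    have hcop : IsCoprime q g := hq.coprime_iff_not_dvd.mpr hqg
    have hcop' : IsCoprime (expand K 2 q) (expand K 2 g) := hcop.map (expand K 2).toRingHom
    have hqu : ¬ IsUnit (expand K 2 q) := by
      intro h3
      have h4 := natDegree_eq_zero_of_isUnit h3
      rw [natDegree_expand] at h4
      have h5 := natDegree_pos_iff_degree_pos.mpr (degree_pos_of_irreducible hq)
      omega
    have hq0 : expand K 2 q ≠ 0 := by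
      intro h3
      have h4 := (expand_eq_zero (p := 2) two_pos).mp h3
      exact hq.ne_zero h4
    obtain ⟨q', hq', hqq⟩ := WfDvdMonoid.exists_irreducible_factor hqu hq0
    have h6 : q' ∣ expand K 2 R := by
      refine hqq.trans ?_
      rw [hh, mul_comm, map_mul]
      exact (map_dvd (expand K 2) hqh).mul_right _
    have h7 : q' ∣ minpoly K y := dvd_minpoly_of_dvd_charpoly f y hP hq' h6
    have h8 : q' ∣ expand K 2 g := by
      refine h7.trans (minpoly.dvd K y ?_)
      rw [expand_aeval, pow_two, hg, minpoly.aeval]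
    exact hq'.not_isUnit (hcop'.isUnit_of_dvd' hqq h8)
  have h1 : h = 1 := hhm.eq_one_of_isUnit hu
  rw [hh, h1, mul_one]

end csa

section symm

variable {k K A : Type*} [Field k] [Field K] [StarRing K] [Ring A] [StarRing A] [Algebra k K]
  [Algebra k A] [Algebra K A] [IsScalarTower k K A]

/-- The minimal polynomial of a symmetric element over the fixed field. -/
theorem minpoly_symm (hfix : ∀ x : K, star x = x ↔ x ∈ Set.range (algebraMap k K))
    (hst : ∀ (c : K) (x : A), star (c • x) = star c • star x) [FiniteDimensional K A]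
    {x : A} (hx : star x = x) : (minpoly k x).map (algebraMap k K) = minpoly K x := by
  have hint : IsIntegral K x := Algebra.IsIntegral.isIntegral _
  have hm := minpoly.monic hint
  obtain ⟨R, hR⟩ : ∃ R, R = minpoly K x := ⟨_, rfl⟩
  rw [← hR] at hm ⊢
  have hstar : R.map (starRingEnd K) = R := by
    have h0 : aeval x (R.map (starRingEnd K)) = 0 := by
      have h1 : star (aeval x R) = 0 := by rw [hR, minpoly.aeval, star_zero]
      rw [aeval_eq_sum_range, star_sum] at h1
      rw [aeval_eq_sum_range, natDegree_map]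
      rw [← h1]
      refine Finset.sum_congr rfl fun i _ => ?_
      rw [hst, star_pow, hx, coeff_map]
      rfl
    have h1 : R ∣ R.map (starRingEnd K) := by
      conv_lhs => rw [hR]
      exact minpoly.dvd K x h0
    exact (eq_of_monic_of_dvd_of_natDegree_le hm (hm.map _) h1 (by rw [natDegree_map])).symm ▸ rfl
  have hl : R ∈ lifts (algebraMap k K) := by
    rw [lifts_iff_coeff_lifts]
    intro i
    have h1 := congrArg (fun P => coeff P i) hstar
    rw [coeff_map] at h1
    exact (hfix _).mp h1
  obtain ⟨R0, hR0, hR0d, hR0m⟩ := lifts_and_natDegree_eq_and_monic hl hm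
  have h1 : aeval x R0 = 0 := by
    rw [← aeval_map_algebraMap K, hR0, hR, minpoly.aeval]
  have hintk : IsIntegral k x := ⟨R0, hR0m, h1⟩
  have h2 : minpoly k x ∣ R0 := minpoly.dvd k x h1
  have h3 : R ∣ (minpoly k x).map (algebraMap k K) := by
    rw [hR]
    refine minpoly.dvd K x ?_
    rw [aeval_map_algebraMap, minpoly.aeval]
  have h4 : minpoly k x = R0 := by
    refine (eq_of_monic_of_dvd_of_natDegree_le (minpoly.monic hintk) hR0m h2 ?_).symm
    rw [hR0d]
    have h5 := natDegree_le_of_dvd h3 ((minpoly.monic hintk).map _).ne_zero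
    rwa [natDegree_map] at h5
  rw [h4, hR0]

end symm

end Vale.Agent.P011.H543.C2
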