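import Vale.Agent.P011.H961.Model
import Vale.Agent.P011.H543.C2.Loc2
import Vale.Agent.P011.H543.C2.MinP
import Vale.Agent.P011.H543.C2.Diag2

/-!
Symmetric elements `y` with `y t = (t + 1) y` in characteristic two: density, and elements with
prescribed characteristic polynomial at almost all places.
-/

open Matrix Module Polynomial Filter Topology

set_option linter.unusedSectionVars false

namespace Vale.Agent.P011.H543.C2

open Vale.Agent.P011.H738 Vale.Agent.P011.H271 Vale.Agent.P011.H487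
open Vale.Agent.P011.H961
open Vale.Agent.P011.H698 (Sm Bd)

theorem proj_id {A : Type*} [Ring A] (h2 : ∀ x : A, x + x = 0) {t y : A}
    (hy : y * t = (t + 1) * y) : t * y + y * t = y := by
  rw [hy, add_mul, one_mul, ← add_assoc, h2, zero_add]

section set

variable {A : Type*} [Ring A] [StarRing A]

/-- The symmetric elements `y` with `y t = (t + 1) y`. -/
def W2 (t : A) : Set A := {y | star y = y ∧ y * t = (t + 1) * y}

theorem W2.sq_comm {t y : A} (h2 : ∀ x : A, x + x = 0) (hy : y ∈ W2 t) :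
    y * y * t = t * (y * y) := sq_swap h2 hy.2

theorem W2.sq_star {t y : A} (hy : y ∈ W2 t) : star (y * y) = y * y := by
  rw [star_mul, hy.1]

/-- The projection of a symmetric element. -/
theorem proj_mem (h2 : ∀ x : A, x + x = 0) {t x a : A} (hts : star t = t) (htt : t * t + t = a)
    (ha : a * x = x * a) (hx : star x = x) : t * x + x * t ∈ W2 t := by
  have hT : t * t = t + a := by
    rw [← htt, add_comm (t * t), ← add_assoc, h2, zero_add]
  refine ⟨?_, ?_⟩
  · rw [star_add, star_mul, star_mul, hts, hx, add_comm]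
  · have e1 : (t * x + x * t) * t = t * x * t + (x * t + x * a) := by
      rw [add_mul, mul_assoc x, hT, mul_add]
    have e2 : (t + 1) * (t * x + x * t) = (t * x + a * x) + t * x * t + (t * x + x * t) := by
      rw [add_mul, one_mul, mul_add, ← mul_assoc, hT, add_mul, mul_assoc t x]
    rw [e1, e2, ha]
    have e3 : t * x + x * a + t * x * t + (t * x + x * t) =
        (t * x + t * x) + (t * x * t + (x * t + x * a)) := by abel
    rw [e3, h2, zero_add]

end set

variable {k K A : Type} [Field k] [Field K] [StarRing K] [Ring A] [StarRing A]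
  [Algebra k K] [Algebra k A] [Algebra K A] [IsScalarTower k K A] [StarModule K A] {n m N : ℕ}

theorem two_A (h2 : (2 : k) = 0) (x : A) : x + x = 0 := by
  have h : (2 : A) = 0 := by rw [← map_ofNat (algebraMap k A) 2, h2, map_zero]
  rw [← two_mul, h, zero_mul]

/-- The projection on the symmetric elements with `y t = (t + 1) y`. -/
theorem exists_proj2 (hA : Anis k K A n) (h2 : (2 : k) = 0) {κ : K} (hκ : κ + star κ = 1) {a : k}
    {t : A} (hts : star t = t) (htt : t * t + t = algebraMap k A a) :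
    ∃ pr : A →ₗ[k] A, (∀ x, pr x ∈ W2 t) ∧ ∀ y ∈ W2 t, pr y = y := by
  have hss := H519.star_smul_of_anis hA
  let st : A →ₗ[k] A :=
    { toFun := star
      map_add' := star_add
      map_smul' := fun c x => hss c x }
  let kk : A →ₗ[k] A := LinearMap.mulLeft k (algebraMap K A κ)
  let E : A →ₗ[k] A := kk + st.comp kk
  have hE : ∀ x, E x = algebraMap K A κ * x + star (algebraMap K A κ * x) := fun x => rfl
  refine ⟨(LinearMap.mulLeft k t + LinearMap.mulRight k t).comp E, fun x => ?_, fun y hy => ?_⟩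
  · have h1 : (LinearMap.mulLeft k t + LinearMap.mulRight k t).comp E x =
        t * E x + E x * t := rfl
    rw [h1]
    refine proj_mem (two_A h2) hts htt (Algebra.commutes _ _) ?_
    rw [hE, star_add, star_star, add_comm]
  · have h1 : (LinearMap.mulLeft k t + LinearMap.mulRight k t).comp E y =
        t * E y + E y * t := rfl
    have h3 : E y = y := by
      rw [hE, ← Algebra.smul_def, star_smul, hy.1, ← add_smul, hκ, one_smul]
    rw [h1, h3]
    exact proj_id (two_A h2) hy.2

section dens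

variable {L : Type} [NontriviallyNormedField L] {φ : K →+* L}
  {g : A →+* Matrix (Fin n) (Fin n) L}

/-- Density. -/
theorem mem_closure_W2 (h2 : (2 : k) = 0) {a : k}
    {t : A} (hts : star t = t) (htt : t * t + t = algebraMap k A a)
    {X : Matrix (Fin n) (Fin n) L} (hX : X * g t = (g t + 1) * X)
    (hd : ∀ O ∈ 𝓝 X, ∃ σ : A, star σ = σ ∧ g σ ∈ O) : X ∈ closure (g '' W2 t) := by
  have h2A := two_A (A := A) h2
  have h2M : ∀ x : Matrix (Fin n) (Fin n) L, x + x = 0 := by
    intro x
    have h : (2 : Matrix (Fin n) (Fin n) L) = 0 := by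
      rw [← map_ofNat g 2]
      have h3 : (2 : A) = 0 := by rw [← one_add_one_eq_two, h2A]
      rw [h3, map_zero]
    rw [← two_mul, h, zero_mul]
  rw [mem_closure_iff_nhds]
  intro O hO
  have hΦc : Continuous fun Y : Matrix (Fin n) (Fin n) L => g t * Y + Y * g t :=
    (continuous_const.mul continuous_id).add (continuous_id.mul continuous_const)
  obtain ⟨σ, hσ, hσO⟩ := hd ((fun Y : Matrix (Fin n) (Fin n) L => g t * Y + Y * g t) ⁻¹' O)
    (hΦc.continuousAt (by rwa [proj_id h2M hX]))
  refine ⟨g t * g σ + g σ * g t, hσO, t * σ + σ * t,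
    proj_mem h2A hts htt (Algebra.commutes _ _) hσ, ?_⟩
  rw [map_add, map_mul, map_mul]

end dens

/-- The identities of `J = κ + t`. -/
theorem J_mul_J {R : Type*} [Field R] (h2 : (2 : R) = 0) {T : Matrix (Fin n) (Fin n) R}
    {κ a ν : R} (hT : T * T + T = a • 1) (hν : κ * κ + κ + a = ν) :
    (κ • 1 + T) * (κ • 1 + T) = (κ • 1 + T) + ν • (1 : Matrix (Fin n) (Fin n) R) := by
  have h2M : ∀ x : Matrix (Fin n) (Fin n) R, x + x = 0 := fun x => by
    rw [← two_smul R, h2, zero_smul]
  have hT' : T * T = T + a • 1 := by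
    rw [← hT, add_comm (T * T), ← add_assoc, h2M, zero_add]
  rw [add_mul, mul_add, mul_add, hT', ← hν, add_smul, add_smul]
  simp only [smul_mul_assoc, mul_smul_comm, one_mul, mul_one, smul_smul]
  have e1 : (κ * κ) • (1 : Matrix (Fin n) (Fin n) R) + κ • T + (κ • T + (T + a • 1)) =
      (κ * κ) • (1 : Matrix (Fin n) (Fin n) R) + T + a • 1 + (κ • T + κ • T) := by abel
  have e2 : κ • (1 : Matrix (Fin n) (Fin n) R) + T + ((κ * κ) • 1 + κ • 1 + a • 1) =
      (κ * κ) • (1 : Matrix (Fin n) (Fin n) R) + T + a • 1 + (κ • 1 + κ • 1) := by abel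
  rw [e1, e2, h2M, h2M]

theorem swap_J {R : Type*} [Field R] {T Y : Matrix (Fin n) (Fin n) R} {κ : R}
    (h : Y * T = (T + 1) * Y) : Y * (κ • 1 + T) = (κ • 1 + T) * Y + Y := by
  rw [mul_add, h, mul_smul_comm, mul_one, add_mul, add_mul, one_mul, smul_mul_assoc, one_mul,
    add_assoc]

theorem swap_T {R : Type*} [Field R] {T Y : Matrix (Fin n) (Fin n) R} {κ : R}
    (h : Y * (κ • 1 + T) = (κ • 1 + T) * Y + Y) : Y * T = (T + 1) * Y := by
  rw [mul_add, mul_smul_comm, mul_one, add_mul, smul_mul_assoc, one_mul, add_assoc] at h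
  rw [add_left_cancel h, add_mul, one_mul]

theorem kappa_eq (h2 : (2 : K) = 0) {κ : K} (hκ : κ + star κ = 1) {ν a : k}
    (hν : κ * star κ = algebraMap k K (ν + a)) :
    κ * κ + κ + algebraMap k K a = algebraMap k K ν := by
  have h3 : star κ = 1 - κ := by rw [← hκ]; ring
  rw [h3, map_add] at hν
  linear_combination -hν + (κ - algebraMap k K ν) * h2

/-- The minimal polynomial of the square under `g`. -/
theorem aeval_g {L : Type} [NontriviallyNormedField L] {φ : K →+* L}
    {g : A →+* Matrix (Fin n) (Fin n) L}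
    (hg : ∀ c : K, g (algebraMap K A c) = algebraMap L _ (φ c)) (x : A) {f : k[X]}
    (hf : aeval x f = 0) : aeval (g x) (f.map (φ.comp (algebraMap k K))) = 0 := by
  have h1 : g (aeval x f) = 0 := by rw [hf, map_zero]
  rw [aeval_def, hom_eval₂] at h1
  rw [aeval_def, eval₂_map]
  have h3 : g.comp (algebraMap k A) =
      (algebraMap L (Matrix (Fin n) (Fin n) L)).comp (φ.comp (algebraMap k K)) := by
    ext1 c
    change g (algebraMap k A c) = algebraMap L _ (φ (algebraMap k K c))
    rw [IsScalarTower.algebraMap_apply k K A, hg]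
  rw [← h3]
  exact h1

/-- **Split places.** -/
theorem pre_split2 [GFF k] (h2 : (2 : k) = 0) (hm : 0 < m) (hA : Anis k K A (2 * m))
    {κ : K} (hκ : κ + star κ = 1) {a ν : k} (hν : κ * star κ = algebraMap k K (ν + a)) {t : A}
    (hts : star t = t) (htt : t * t + t = algebraMap k A a) {y0 : A} (hy0 : y0 ∈ W2 t)
    {v : Place k} (hνv : v.abv ν ≤ 1) (hint : ∀ i, v.abv ((minpoly k (y0 * y0)).coeff i) ≤ 1)
    (h0 : v.abv ((minpoly k (y0 * y0)).coeff 0) = 1) [FiniteDimensional k A] {φ : K →ₐ[k] v.comp}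
    {g : A →+* Matrix (Fin (2 * m)) (Fin (2 * m)) v.comp}
    (hg : ∀ c : K, g (algebraMap K A c) = algebraMap v.comp _ (φ c)) (c : Fin m → k) :
    letI := nnfPlace v
    ∃ Y ∈ closure (g '' W2 t),
      Y.charpoly = expand v.comp 2 (∏ i, (X - C (φ (algebraMap k K (c i)) ^ 2))) := by
  let _ := nnfPlace v
  have hcen := hA.central
  have hsim := hA.simple
  have hn0 : 2 * m ≠ 0 := by omega
  have h2K : (2 : K) = 0 := by rw [← map_ofNat (algebraMap k K) 2, h2, map_zero]
  have h2L : (2 : v.comp) = 0 := by rw [← map_ofNat (algebraMap k v.comp) 2, h2, map_zero]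
  have hspan := H519.span_swap hA.finrank_eq hn0 hA.star_ne (φ : K →+* v.comp) g hg
  have hn1 : ∀ c : k, ‖(φ : K →+* v.comp) (algebraMap k K c)‖ = v.abv c := fun c => by
    change ‖φ (algebraMap k K c)‖ = _
    rw [φ.commutes, norm_alg]
  have hT : g t * g t + g t = φ (algebraMap k K a) • 1 := by
    rw [← map_mul, ← map_add, htt, IsScalarTower.algebraMap_apply k K A, hg,
      Algebra.algebraMap_eq_smul_one]
  have hJ := J_mul_J h2L hT (κ := φ κ) (ν := φ (algebraMap k K ν)) (by
    rw [← kappa_eq h2K hκ hν, map_add, map_add, map_mul])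
  have hYT : g y0 * g t = (g t + 1) * g y0 := by
    rw [← map_mul, hy0.2, map_mul, map_add, map_one]
  have hYJ := swap_J (κ := φ κ) hYT
  obtain ⟨Y1, h3, h4, -⟩ := exists_invol2 (L := v.comp) h2L (ν := φ (algebraMap k K ν))
    ((hn1 ν).trans_le hνv) hJ hYJ
    (f := (minpoly k (y0 * y0)).map ((φ : K →+* v.comp).comp (algebraMap k K)))
    ((minpoly.monic (Algebra.IsIntegral.isIntegral _)).map _)
    (by
      rw [← map_mul]
      exact aeval_g (φ := (φ : K →+* v.comp)) hg _ (minpoly.aeval _ _))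
    (fun i => by
      rw [coeff_map]
      exact (hn1 _).trans_le (hint i))
    (by
      rw [coeff_map]
      exact (hn1 _).trans h0)
  obtain ⟨Y, h5, h6⟩ := exists_mat2 h2L rfl hJ h3 h4 fun i => φ (algebraMap k K (c i))
  exact ⟨Y, mem_closure_W2 h2 hts htt (swap_T h5) fun O hO =>
    H565.dense_sym_FF hA hg hspan _ hO, h6⟩

/-- **Places which do not split in the centre.** -/
theorem pre_nonsplit2 [GFF k] (h2 : (2 : k) = 0) (hm : 0 < m) (hA : Anis k K A (2 * m))
    {κ : K} (hκ : κ + star κ = 1) {a ν : k} (hν : κ * star κ = algebraMap k K (ν + a)) {t : A}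
    (hts : star t = t) (htt : t * t + t = algebraMap k A a) {y0 : A} (hy0 : y0 ∈ W2 t)
    {v : Place k} (hνv : v.abv ν ≤ 1) (hint : ∀ i, v.abv ((minpoly k (y0 * y0)).coeff i) ≤ 1)
    (h0 : v.abv ((minpoly k (y0 * y0)).coeff 0) = 1) [FiniteDimensional k A]
    {L : Type} [NontriviallyNormedField L] [ProperSpace L] [IsUltrametricDist L] [StarRing L]
    {φ : K →+* L} (hst : ∀ x : L, ‖star x‖ = ‖x‖)
    (hφs : ∀ x, φ (star x) = star (φ x)) (hd : DenseRange φ)
    (hφ : ∀ c : k, ‖φ (algebraMap k K c)‖ = v.abv c)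
    {g : A →+* Matrix (Fin (2 * m)) (Fin (2 * m)) L}
    (hg : ∀ c : K, g (algebraMap K A c) = algebraMap L _ (φ c)) (c : Fin m → k) :
    ∃ Y ∈ closure (g '' W2 t),
      Y.charpoly = expand L 2 (∏ i, (X - C (φ (algebraMap k K (c i)) ^ 2))) := by
  have hcen := hA.central
  have hsim := hA.simple
  have hn0 : 2 * m ≠ 0 := by omega
  have h2K : (2 : K) = 0 := by rw [← map_ofNat (algebraMap k K) 2, h2, map_zero]
  have h2L : (2 : L) = 0 := by rw [← map_ofNat φ 2, h2K, map_zero]
  have h2M : ∀ x : Matrix (Fin (2 * m)) (Fin (2 * m)) L, x + x = 0 := fun x => by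
    rw [← two_smul L, h2L, zero_smul]
  have hne : ∃ x : L, star x ≠ x := by
    obtain ⟨x, hx⟩ := hA.star_ne
    refine ⟨φ x, fun h => hx (φ.injective ?_)⟩
    rw [hφs, h]
  obtain ⟨H, hH, hdet, hgH⟩ := H756.exists_herm hn0 hA.finrank_eq hne φ hφs g hg
  have hHu : IsUnit H.det := isUnit_iff_ne_zero.2 hdet
  have hcs : Continuous (star : L → L) := by
    have h1 : Isometry (star : L → L) := Isometry.of_dist_eq fun x y => by
      rw [dist_eq_norm, dist_eq_norm, ← star_sub, hst]
    exact h1.continuous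
  have hks : ∀ c : k, star (φ (algebraMap k K c)) = φ (algebraMap k K c) := fun c => by
    rw [← hφs, (hA.fixed _).mpr ⟨c, rfl⟩]
  have hT : g t * g t + g t = φ (algebraMap k K a) • 1 := by
    rw [← map_mul, ← map_add, htt, IsScalarTower.algebraMap_apply k K A, hg,
      Algebra.algebraMap_eq_smul_one]
  have hJ := J_mul_J h2L hT (κ := φ κ) (ν := φ (algebraMap k K ν)) (by
    rw [← kappa_eq h2K hκ hν, map_add, map_add, map_mul])
  have hYT : g y0 * g t = (g t + 1) * g y0 := by
    rw [← map_mul, hy0.2, map_mul, map_add, map_one]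
  have hYJ := swap_J (κ := φ κ) hYT
  obtain ⟨Y1, h3, h4, h5⟩ := exists_invol2 h2L (ν := φ (algebraMap k K ν))
    ((hφ ν).trans_le hνv) hJ hYJ
    (f := (minpoly k (y0 * y0)).map (φ.comp (algebraMap k K)))
    ((minpoly.monic (Algebra.IsIntegral.isIntegral _)).map _)
    (by
      rw [← map_mul]
      exact aeval_g hg _ (minpoly.aeval _ _))
    (fun i => by
      rw [coeff_map]
      exact (hφ _).trans_le (hint i))
    (by
      rw [coeff_map]
      exact (hφ _).trans h0)
  have hTH : g t * H = H * (g t)ᴴ := by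
    have h5 := hgH t
    rwa [hts] at h5
  have hκs : star (φ κ) = φ κ + 1 := by
    rw [← hφs, ← map_one φ, ← map_add]
    congr 1
    have h6 : star κ = 1 - κ := by rw [← hκ]; ring
    rw [h6]
    linear_combination -κ * h2K
  have hJH : (φ κ • 1 + g t) * H = H * (φ κ • 1 + g t)ᴴ + H := by
    rw [conjTranspose_add, conjTranspose_smul, conjTranspose_one, mul_add, add_mul, hTH, hκs,
      smul_mul_assoc, one_mul, mul_smul_comm, mul_one, add_smul, one_smul]
    have e : φ κ • H + H + H * (g t)ᴴ + H = φ κ • H + H * (g t)ᴴ + (H + H) := by abel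
    rw [e, h2M, add_zero]
  -- the involution
  have hσc : Continuous fun X : Matrix (Fin (2 * m)) (Fin (2 * m)) L => H * Xᴴ * H⁻¹ := by
    have hc1 : Continuous fun Y : Matrix (Fin (2 * m)) (Fin (2 * m)) L => Yᴴ := by
      refine continuous_matrix fun i j => ?_
      exact hcs.comp (continuous_id.matrix_elem j i)
    exact (continuous_const.mul hc1).mul continuous_const
  have hfix : ∀ X : Matrix (Fin (2 * m)) (Fin (2 * m)) L,
      H * Xᴴ * H⁻¹ = X ↔ X * H = H * Xᴴ := by
    intro X
    constructor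
    · intro h
      calc X * H = H * Xᴴ * H⁻¹ * H := by rw [h]
        _ = _ := by rw [mul_assoc, nonsing_inv_mul _ hHu, mul_one]
    · intro h
      rw [← h, mul_assoc, mul_nonsing_inv _ hHu, mul_one]
  have hY1H : Y1 * H = H * Y1ᴴ := by
    rw [← hfix]
    refine h5 (fun X => H * Xᴴ * H⁻¹) hσc (fun x y => ?_) (fun x y => ?_) ?_ (fun x => ?_) ?_ ?_
    · rw [conjTranspose_add, mul_add, add_mul]
    · rw [conjTranspose_mul]
      calc H * (yᴴ * xᴴ) * H⁻¹ = H * yᴴ * (H⁻¹ * H) * xᴴ * H⁻¹ := by
            rw [nonsing_inv_mul _ hHu, mul_one]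
            simp only [mul_assoc]
        _ = _ := by simp only [mul_assoc]
    · rw [conjTranspose_one, mul_one, mul_nonsing_inv _ hHu]
    · rw [conjTranspose_smul, hks, mul_smul_comm, smul_mul_assoc]
    · have e : H * (φ κ • 1 + g t)ᴴ = (φ κ • 1 + g t) * H + H := by
        rw [hJH, add_assoc, h2M, add_zero]
      rw [e, add_mul, mul_assoc, mul_nonsing_inv _ hHu, mul_one]
    · rw [hfix]
      have h6 := hgH y0
      rwa [hy0.1] at h6
  obtain ⟨Y, h6, h7, h8⟩ := exists_mat_herm2 hne h2L rfl hH hdet hJ hJH h3 h4 hY1H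
    (fun i => φ (algebraMap k K (c i))) fun i => hks (c i)
  exact ⟨Y, mem_closure_W2 h2 hts htt (swap_T h6) fun O hO =>
    H800.dense_sym_herm hA hn0 hst φ hφs hd hg hdet hgH h7 hO, h8⟩

end Vale.Agent.P011.H543.C2
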